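import Vale.Agent.P193.Full.Core.Empty.Glue.PushMove
import Vale.Agent.P193.Full.Core.Empty.AtomObDefs

/-! Pushes of valuations, with the axioms of virtual points that mention them. -/

namespace Vale.Agent.P193.Core.Empty.Glue

open Calc Inst Classical

set_option linter.unusedSectionVars false

variable {d : Data} [DecidableEq d.M.A] {F : Calc.Frame (Point d)} {M : F.Model}
variable {E : Env M} (T : PushEnv E)

/-- The valuations to which a push applies. -/
def PDom (p : Inst.Push) (v : Pt E) : Prop :=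
  p.DomAt (vst E v) (vtag E v) ∧ (p = .tMap → vhOne E v)

include T in
theorem val_domB {p : Inst.Push} {v : Pt E} (h : PDom p v) :
    v.1 (at1 (p.domB (vst E v) (vtag E v))) = true := by
  by_cases hp : p = .tMap
  · subst hp
    exact (P_at E T.covers v .hOne).1 (h.2 rfl)
  · rw [Push.domB, if_neg hp]
    exact at_vst E T.covers v

/-- A valuation over a pushed tag, used off the domains. -/
noncomputable def dflt (b : Bool) : Pt E := (T.fin.root_ex E.ctx b).choose

/-- The valuation after a push. -/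
noncomputable def pv (p : Inst.Push) (v : Pt E) : Pt E :=
  if h : PDom p v then (pushMove T p (vst E v) (vtag E v) h.1).push v else dflt T p.tag

/-- The pushes of valuations. -/
noncomputable def vpush : Ctor d → Pt E → Pt E
  | .theta r, v => vG E r⁻¹ (pv T .theta v)
  | .omC, v => pv T .omC v
  | .omD, v => pv T .omD v
  | .omK, v => pv T .omK v
  | .tM, v => pv T .tMap v

theorem pv_eq {p : Inst.Push} {v : Pt E} {s : State d} {b : Bool} (h : PDom p v)
    (hs : vst E v = s) (hb : vtag E v = b) (hd : p.DomAt s b) :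
    pv T p v = (pushMove T p s b hd).push v := by
  subst hs hb
  rw [pv, dif_pos h]

theorem pv_mem {p : Inst.Push} {v : Pt E} (h : PDom p v) :
    (pv T p v).1 (imA p (vst E v) (vtag E v) h.1) = true := by
  rw [pv, dif_pos h]
  exact (pushMove T p _ _ h.1).push_mem (val_domB T h)

theorem pv_root (p : Inst.Push) (v : Pt E) : (pv T p v).1 (at1 (rootB p.tag)) = true := by
  by_cases h : PDom p v
  · exact val_im_root (pv_mem T h)
  · rw [pv, dif_neg h]
    exact (T.fin.root_ex E.ctx p.tag).choose_spec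

theorem pv_cell (p : Inst.Push) (v : Pt E) :
    vst E (pv T p v) = .fin ∧ vtag E (pv T p v) = p.tag :=
  vst_eq E T.covers (at_of_val E.ctx E.rig (pv_root T p v))

theorem pv_val {p : Inst.Push} {v : Pt E} (h : PDom p v) (A : Kappa d)
    (hA : Inst.Atom.Dom p A.1) (hs : A.1.st = vst E v) (hb : A.1.tag = vtag E v) :
    (pv T p v).1 (pA p A hA) = true ↔ v.1 A = true := by
  rw [pv, dif_pos h]
  let m := pushMove T p (vst E v) (vtag E v) h.1
  have hD := val_domB T h
  refine Iff.trans ?_ (m.push_val hD A)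
  have hk := (exists_img T p (vst E v) (vtag E v) h.1 A).choose_spec.2
  have hle : Calc.Le (kfld M A) (kfld M (at1 (p.domB (vst E v) (vtag E v)))) := by
    rw [← hs, ← hb]; exact le_domB E hA
  rw [tfld_inter_le E hle] at hk
  have e : (ctx E.ctx).tfld (.var (pA p A hA)) =
      (ctx E.ctx).tfld (.inter (.var (imA p (vst E v) (vtag E v) h.1)) (m.k A)) := by
    show kfld M _ = _
    rw [fld_pA E, hs]
    exact hk
  exact (holds_of_fld E.ctx e _).trans
    ⟨fun h' => h'.2, fun h' => ⟨m.push_mem hD, h'⟩⟩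

theorem pv_unique {p : Inst.Push} {v ν : Pt E} (h : PDom p v)
    (hν : ν.1 (imA p (vst E v) (vtag E v) h.1) = true)
    (hval : ∀ (A : Kappa d) (hA : Inst.Atom.Dom p A.1), A.1.st = vst E v → A.1.tag = vtag E v →
      (ν.1 (pA p A hA) = true ↔ v.1 A = true)) : ν = pv T p v := by
  rw [pv, dif_pos h]
  let m := pushMove T p (vst E v) (vtag E v) h.1
  have hD := val_domB T h
  have e : m.pop ν = v := Subtype.ext (funext fun A => by
    rw [Bool.eq_iff_iff, m.pop_val hν, ← m.push_val hD A]
    rcases (exists_img T p (vst E v) (vtag E v) h.1 A).choose_spec.1 with e | e | ⟨A', hA', h1, h2, e⟩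
    · rw [show m.k A = _ from e]
      exact iff_of_true hν (m.push_mem hD)
    · rw [show m.k A = _ from e]
      exact iff_of_false (holds_emp (E := E) _) (holds_emp (E := E) _)
    · rw [show m.k A = _ from e]
      have h3 := pv_val T h A' hA' h1 h2
      rw [pv, dif_pos h] at h3
      exact (hval A' hA' h1 h2).trans h3.symm)
  exact (m.push_pop hν).symm.trans (congrArg m.push e)

include T in
theorem pdom_h {p : Inst.Push} (hp : p ≠ .tMap) {v : Pt E} (h : PDom p v) (t : Outer d) :
    PDom p (vH E t v) := by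
  obtain ⟨e1, e2⟩ := vst_out E T.covers t v
  exact ⟨by rw [e1, e2]; exact h.1, fun e => absurd e hp⟩

include T in
theorem vhOne_in (t : Inner d) (v : Pt E) : vhOne E (vG E t v) ↔ vhOne E v := by
  unfold vhOne
  rw [P_at E T.covers, P_at E T.covers, (vst_in E T.covers t v).1, (vst_in E T.covers t v).2,
    in_val (B := ⟨vst E v, vtag E v, .hOne⟩) E.ctx E.rig E.laws trivial]

include T in
theorem pdom_g {p : Inst.Push} {v : Pt E} (h : PDom p v) (t : Inner d) :
    PDom p (vG E t v) := by
  obtain ⟨e1, e2⟩ := vst_in E T.covers t v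
  exact ⟨by rw [e1, e2]; exact h.1, fun e => (vhOne_in T t v).2 (h.2 e)⟩

/-- Inner translations pass through a push other than theta. -/
theorem pv_in {p : Inst.Push} (hp : p ≠ .theta) {v : Pt E} (h : PDom p v) (t : Inner d) :
    vG E t (pv T p v) = pv T p (vG E t v) := by
  obtain ⟨e1, e2⟩ := vst_in E T.covers t v
  refine pv_unique T (pdom_g T h t) ?_ fun A hA h1 h2 => ?_
  · rw [im_in hp]
    simp only [e1, e2]
    exact pv_mem T h
  · rw [gAct_val, val_congr E.ctx (fld_push_in E hp A hA t),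
      pv_val T h (inK A t) (dom_inShift hA t) ((inK_cell A t).1.trans (h1.trans e1))
        ((inK_cell A t).2.trans (h2.trans e2)), gAct_val]

/-- Theta turns an outer translation into an inner one. -/
theorem pv_theta (t : Outer d) (v : Pt E) :
    vG E (toInner d t) (pv T .theta v) = pv T .theta (vH E t v) := by
  have h : PDom .theta v := ⟨trivial, fun e => by simp at e⟩
  obtain ⟨e1, e2⟩ := vst_out E T.covers t v
  refine pv_unique T (pdom_h T (by simp) h t) ?_ fun A hA h1 h2 => ?_
  · show (vG E _ _).1 (pA .theta (at1 (Inst.Push.theta.domB (vst E (vH E t v))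
      (vtag E (vH E t v)))) (theta_dom _)) = true
    let A : Kappa d := at1 (Inst.Push.theta.domB (vst E (vH E t v)) (vtag E (vH E t v)))
    rw [gAct_val, val_congr E.ctx (fld_theta_in E A t),
      pv_val T h (outK A t) (theta_dom _) ((outK_cell A t).1.trans e1)
        ((outK_cell A t).2.trans e2)]
    rw [← hAct_val E.ctx E.rig E.laws]
    exact val_domB T (pdom_h T (by simp) h t)
  · rw [gAct_val, val_congr E.ctx (fld_theta_in E A t),
      pv_val T h (outK A t) (theta_dom _) ((outK_cell A t).1.trans (h1.trans e1))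
        ((outK_cell A t).2.trans (h2.trans e2)), hAct_val]

theorem pv_inj {p p' : Inst.Push} {v v' : Pt E} (h : PDom p v) (h' : PDom p' v')
    (e : pv T p v = pv T p' v') : p = p' ∧ v = v' := by
  have h1 := pv_mem T h
  rw [e] at h1
  obtain ⟨rfl, hs, hb⟩ := im_unique h1 (pv_mem T h')
  refine ⟨rfl, ?_⟩
  rw [pv_eq T h rfl rfl h.1, pv_eq T h' hs.symm hb.symm h.1] at e
  refine (pushMove T p _ _ h.1).push_inj (val_domB T h) ?_ e
  show v'.1 (at1 (p.domB (vst E v) (vtag E v))) = true
  rw [hs, hb]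
  exact val_domB T h'

/-! ### The axioms -/

theorem pdom_theta (v : Pt E) : PDom (Inst.Push.theta) v := ⟨trivial, fun e => by simp at e⟩

theorem push_cell (K : Ctor d) (v : Pt E) :
    vst E (vpush T K v) = .fin ∧ vtag E (vpush T K v) = K.tag := by
  cases K with
  | theta r =>
    obtain ⟨e1, e2⟩ := vst_in E T.covers r⁻¹ (pv T .theta v)
    obtain ⟨h1, h2⟩ := pv_cell T .theta v
    exact ⟨e1.trans h1, e2.trans h2⟩
  | omC => exact pv_cell T _ v
  | omD => exact pv_cell T _ v
  | omK => exact pv_cell T _ v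
  | tM => exact pv_cell T _ v

theorem push_st (K : Ctor d) (v : Pt E) : vst E (vpush T K v) = .fin := (push_cell T K v).1

theorem push_tag (K : Ctor d) (v : Pt E) : vtag E (vpush T K v) = K.tag := (push_cell T K v).2

theorem push_hOne (K : Ctor d) (v : Pt E) : vhOne E (vpush T K v) := by
  have key : ∀ p, vhOne E (pv T p v) := fun p => ⟨_, _, pv_root T p v⟩
  cases K with
  | theta r => exact (vhOne_in T _ _).2 (key _)
  | omC => exact key _
  | omD => exact key _
  | omK => exact key _
  | tM => exact key _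

theorem vG_mul (s t : Inner d) (v : Pt E) : vG E (s * t) v = vG E s (vG E t v) := by
  rw [_root_.map_mul]; rfl

theorem theta_r (r k : Inner d) (v : Pt E) :
    vG E k (vpush T (.theta r) v) = vpush T (.theta (r * k⁻¹)) v := by
  show vG E k (vG E r⁻¹ _) = vG E (r * k⁻¹)⁻¹ _
  rw [← vG_mul, mul_inv_rev, inv_inv]

theorem theta_emb (r : Inner d) (t : Outer d) (v : Pt E) :
    vpush T (.theta r) (vH E t v) = vpush T (.theta ((toInner d t)⁻¹ * r)) v := by
  show vG E r⁻¹ (pv T .theta (vH E t v)) = vG E ((toInner d t)⁻¹ * r)⁻¹ (pv T .theta v)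
  rw [← pv_theta T t v, ← vG_mul, mul_inv_rev, inv_inv]

theorem theta_coset (r r' : Inner d) (v v' : Pt E)
    (h : vpush T (.theta r) v = vpush T (.theta r') v') : r' * r⁻¹ ∈ (toInner d).range := by
  by_contra hr
  have e : pv T .theta v' = vG E (r' * r⁻¹) (pv T .theta v) := by
    have h' : vG E r⁻¹ (pv T .theta v) = vG E r'⁻¹ (pv T .theta v') := h
    rw [vG_mul, h', ← vG_mul, mul_inv_cancel, _root_.map_one]
    rfl
  have h1 := pv_mem T (pdom_theta v')
  rw [e, gAct_val] at h1
  refine not_both E.ctx ?_ _ h1 (pv_mem T (pdom_theta v))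
  rw [fld_inK E, fld_imA E, fld_imA E]
  exact T.cos _ (fun t ht => hr ⟨t, ht⟩) _ _ _ _

theorem theta_inj (v v' : Pt E) (h : vpush T (.theta 1) v = vpush T (.theta 1) v') : v = v' := by
  refine (pv_inj T (pdom_theta v) (pdom_theta v') ?_).2
  exact (vG E (1 : Inner d)⁻¹).injective h

theorem dom_omC {v : Pt E} (h : vtag E v = true) : PDom .omC v :=
  ⟨h, fun e => by simp at e⟩

theorem dom_omD {v : Pt E} (h : vtag E v = false) : PDom .omD v :=
  ⟨h, fun e => by simp at e⟩

theorem dom_omK {v : Pt E} (h : vtag E v = false) (hs : vst E v = .guess) : PDom .omK v :=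
  ⟨⟨h, hs⟩, fun e => by simp at e⟩

theorem dom_tM {v : Pt E} (h : vtag E v = false) (hs : vst E v = .fin) (hh : vhOne E v) :
    PDom .tMap v :=
  ⟨⟨h, hs⟩, fun _ => hh⟩

theorem omC_inj (v v' : Pt E) (h1 : vtag E v = true) (h2 : vtag E v' = true)
    (e : vpush T .omC v = vpush T .omC v') : v = v' :=
  (pv_inj T (dom_omC h1) (dom_omC h2) e).2

theorem omD_inj (v v' : Pt E) (h1 : vtag E v = false) (h2 : vtag E v' = false)
    (e : vpush T .omD v = vpush T .omD v') : v = v' :=
  (pv_inj T (dom_omD h1) (dom_omD h2) e).2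

theorem omK_inj (v v' : Pt E) (h1 : vtag E v = false) (h1' : vst E v = .guess)
    (h2 : vtag E v' = false) (h2' : vst E v' = .guess)
    (e : vpush T .omK v = vpush T .omK v') : v = v' :=
  (pv_inj T (dom_omK h1 h1') (dom_omK h2 h2') e).2

theorem tM_inj (v v' : Pt E) (h1 : vtag E v = false) (h1' : vst E v = .fin)
    (h1'' : vhOne E v) (h2 : vtag E v' = false) (h2' : vst E v' = .fin) (h2'' : vhOne E v')
    (e : vpush T .tM v = vpush T .tM v') : v = v' :=
  (pv_inj T (dom_tM h1 h1' h1'') (dom_tM h2 h2' h2'') e).2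

theorem omC_g (k : Inner d) (v : Pt E) (h : vtag E v = true) :
    vG E k (vpush T .omC v) = vpush T .omC (vG E k v) :=
  pv_in T (by simp) (dom_omC h) k

theorem omD_g (k : Inner d) (v : Pt E) (h : vtag E v = false) :
    vG E k (vpush T .omD v) = vpush T .omD (vG E k v) :=
  pv_in T (by simp) (dom_omD h) k

theorem omK_g (k : Inner d) (v : Pt E) (h : vtag E v = false) (hs : vst E v = .guess) :
    vG E k (vpush T .omK v) = vpush T .omK (vG E k v) :=
  pv_in T (by simp) (dom_omK h hs) k

theorem tM_g (k : Inner d) (v : Pt E) (h : vtag E v = false) (hs : vst E v = .fin)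
    (hh : vhOne E v) : vG E k (vpush T .tM v) = vpush T .tM (vG E k v) :=
  pv_in T (by simp) (dom_tM h hs hh) k

theorem gOne_pv {p : Inst.Push} {v : Pt E} (h : PDom p v) {Q : Pred d}
    (hQ : pullPred p (.gOne : Pred d) = some Q)
    (hd : Inst.Atom.Dom p (at1 ⟨vst E v, vtag E v, Q⟩).1) :
    vgOne E (pv T p v) ↔ P E.ctx v Q := by
  unfold vgOne
  rw [P_at E T.covers, (pv_cell T p v).1, (pv_cell T p v).2,
    T.fin.pull p _ _ h.1 Q hQ hd E.ctx _ (pv_mem T h),
    pv_val T h _ hd rfl rfl, P_at E T.covers]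

theorem theta_gOne (v : Pt E) : vgOne E (vpush T (.theta 1) v) ↔ vhOne E v := by
  show vgOne E (vG E (1 : Inner d)⁻¹ (pv T .theta v)) ↔ _
  rw [inv_one, _root_.map_one]
  exact gOne_pv T (pdom_theta v) rfl (theta_dom _)

theorem theta_gOne_range (r : Inner d) (v : Pt E) (h : vgOne E (vpush T (.theta r) v)) :
    r ∈ (toInner d).range := by
  obtain ⟨K, hK, hcos⟩ := T.fin.cos
  obtain ⟨k, hk, t, ht⟩ := hK.1 r
  by_contra hr
  have hkr : k ∉ Facts.innerR d := by
    rintro ⟨u, hu⟩
    exact hr ⟨t * u, by rw [_root_.map_mul, ht, hu, inv_mul_cancel_right]⟩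
  have e : vpush T (.theta r) v = vG E k⁻¹ (pv T .theta (vH E t⁻¹ v)) := by
    show vG E r⁻¹ _ = _
    rw [← pv_theta T, ← vG_mul, _root_.map_inv (toInner d), ht]
    congr 2
    group
  rw [e] at h
  unfold vgOne at h
  rw [P_at E T.covers, (vst_in E T.covers _ _).1, (vst_in E T.covers _ _).2,
    (pv_cell T _ _).1, (pv_cell T _ _).2, gAct_val] at h
  exact hcos k hk hkr _ _ E.ctx _ ⟨pv_mem T (pdom_theta _), h⟩

theorem omD_gOne (v : Pt E) (h : vtag E v = false) :
    vgOne E (vpush T .omD v) ↔ vgOne E v :=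
  gOne_pv T (dom_omD h) rfl h

theorem omK_gOne (v : Pt E) (h : vtag E v = false) (hs : vst E v = .guess) :
    vgOne E (vpush T .omK v) ↔ vkOne E v :=
  gOne_pv T (dom_omK h hs) rfl ⟨h, hs⟩

theorem theta_ne {p : Inst.Push} (hp : p ≠ .theta) (r : Inner d) (v : Pt E) {v' : Pt E}
    (h : PDom p v') : vG E r⁻¹ (pv T .theta v) ≠ pv T p v' := by
  intro e
  have h1 := pv_mem T h
  rw [← e, im_in hp] at h1
  exact hp (im_unique h1 (pv_mem T (pdom_theta v))).1

theorem theta_omD (r : Inner d) (v v' : Pt E) (h : vtag E v' = false) :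
    vpush T (.theta r) v ≠ vpush T .omD v' :=
  theta_ne T (by simp) r v (dom_omD h)

theorem theta_omK (r : Inner d) (v v' : Pt E) (h : vtag E v' = false)
    (hs : vst E v' = .guess) : vpush T (.theta r) v ≠ vpush T .omK v' :=
  theta_ne T (by simp) r v (dom_omK h hs)

theorem omD_omK (v v' : Pt E) (h : vtag E v = false) (h' : vtag E v' = false)
    (hs : vst E v' = .guess) : vpush T .omD v ≠ vpush T .omK v' := fun e =>
  absurd (pv_inj T (dom_omD h) (dom_omK h' hs) e).1 (by simp)

theorem omC_tM (v v' : Pt E) (h : vtag E v = true) (h' : vtag E v' = false)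
    (hs : vst E v' = .fin) (hh : vhOne E v') : vpush T .omC v ≠ vpush T .tM v' := fun e =>
  absurd (pv_inj T (dom_omC h) (dom_tM h' hs hh) e).1 (by simp)

theorem finC (u : Pt E) (hs : vst E u = .fin) (hh : vhOne E u) (hb : vtag E u = true) :
    (∃ v, vtag E v = true ∧ u = vpush T .omC v) ∨
      ∃ v, vtag E v = false ∧ vst E v = .fin ∧ vhOne E v ∧ u = vpush T .tM v := by
  unfold vhOne at hh
  rw [P_at E T.covers, hs, hb] at hh
  rcases T.fin.finC E.ctx u hh with ⟨s, h⟩ | h
  · refine Or.inl ?_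
    let m := pushMove T .omC s true rfl
    obtain ⟨e1, e2⟩ := vst_eq E T.covers (at_of_val E.ctx E.rig (m.pop_mem h))
    refine ⟨m.pop u, e2, ?_⟩
    show u = pv T .omC (m.pop u)
    rw [pv_eq T (dom_omC e2) e1 e2 rfl]
    exact (m.push_pop h).symm
  · refine Or.inr ?_
    let m := pushMove T .tMap .fin false ⟨rfl, rfl⟩
    have hD := m.pop_mem h
    obtain ⟨e1, e2⟩ := vst_eq E T.covers (at_of_val E.ctx E.rig hD)
    have hh' : vhOne E (m.pop u) := ⟨_, _, hD⟩
    refine ⟨m.pop u, e2, e1, hh', ?_⟩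
    show u = pv T .tMap (m.pop u)
    rw [pv_eq T (dom_tM e2 e1 hh') e1 e2 ⟨rfl, rfl⟩]
    exact (m.push_pop h).symm

/-- A pushed predicate holds at a push exactly when the predicate holds below. -/
theorem push_val {p : Inst.Push} {v : Pt E} (h : PDom p v) (A : Kappa d)
    (hA : Inst.Atom.Dom p A.1) (hs : A.1.st = vst E v) (hb : A.1.tag = vtag E v) :
    (pv T p v).1 (pA p A hA) = true ↔ v.1 A = true :=
  pv_val T h A hA hs hb

/-- A pushed predicate holds only at a push. -/
theorem exists_pv {p : Inst.Push} {ν : Pt E} {A : Kappa d} (hA : Inst.Atom.Dom p A.1)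
    (h : ν.1 (pA p A hA) = true) :
    ∃ v : Pt E, PDom (E := E) p v ∧ vst E v = A.1.st ∧ vtag E v = A.1.tag ∧ ν = pv T p v ∧
      v.1 A = true := by
  have h1 := val_pA hA h
  let m := pushMove T p A.1.st A.1.tag (E.rig.le_dom A.2 hA).1
  have hD : (m.pop ν).1 (at1 (p.domB A.1.st A.1.tag)) = true := m.pop_mem h1
  obtain ⟨e1, e2⟩ := vst_eq E T.covers (at_of_val E.ctx E.rig hD)
  have hv : PDom (E := E) p (m.pop ν) := by
    refine ⟨?_, fun e => ?_⟩
    · rw [e1, e2]; exact (E.rig.le_dom A.2 hA).1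
    · subst e
      exact ⟨_, _, hD⟩
  have e : ν = pv T p (m.pop ν) := by
    rw [pv_eq T hv e1 e2 (E.rig.le_dom A.2 hA).1]
    exact (m.push_pop h1).symm
  refine ⟨m.pop ν, hv, e1, e2, e, ?_⟩
  rw [← pv_val T hv A hA e1.symm e2.symm, ← e]
  exact h

/-- The valuations in the domain of a constructor, as virtual points read it. -/
def CDom : Ctor d → Pt E → Prop
  | .theta _, _ => True
  | .omC, v => vtag E v = true
  | .omD, v => vtag E v = false
  | .omK, v => vtag E v = false ∧ vst E v = .guess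
  | .tM, v => vtag E v = false ∧ vst E v = .fin ∧ vhOne E v

include T in
theorem cdom_iff (p : Inst.Push) (v : Pt E) : CDom (pushCtor p 1) v ↔ PDom p v := by
  cases p <;> simp [CDom, PDom, pushCtor, Inst.Push.DomAt, and_assoc]

theorem vpush_ctor (p : Inst.Push) (v : Pt E) : vpush T (pushCtor p 1) v = pv T p v := by
  cases p <;> first | rfl | skip
  show vG E (1 : Inner d)⁻¹ _ = _
  rw [inv_one, _root_.map_one]
  rfl

/-- A pushed atom read at a push. -/
theorem push_read {p : Inst.Push} {w : Pt E} (hw : CDom (pushCtor p 1) w) (A : Kappa d)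
    (hA : Inst.Atom.Dom p A.1) (hs : A.1.st = vst E w) (hb : A.1.tag = vtag E w) (A' : Kappa d)
    (hA' : A'.1 = .push [] 1 1 p A.1) :
    (vpush T (pushCtor p 1) w).1 A' = w.1 A := by
  obtain rfl : A' = pA p A hA := Subtype.ext hA'
  rw [Bool.eq_iff_iff, vpush_ctor T]
  exact pv_val T ((cdom_iff T p w).1 hw) A hA hs hb

/-- The image of a push is covered by the pushes. -/
theorem push_cover {p : Inst.Push} {s : State d} {b : Bool} (hd : p.DomAt s b) {u : Pt E}
    (hu : u.1 (imK p s b (dom_domB hd)) = true) :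
    ∃ w, CDom (pushCtor p 1) w ∧ vst E w = s ∧ vtag E w = b ∧
      vpush T (pushCtor p 1) w = u := by
  obtain ⟨w, h1, h2, h3, h4, -⟩ := exists_pv T (A := at1 (p.domB s b)) (dom_domB hd) hu
  exact ⟨w, (cdom_iff T p w).2 h1, h2, h3, (vpush_ctor T p w).trans h4.symm⟩

end Vale.Agent.P193.Core.Empty.Glue
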