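import Vale.Agent.P193.Full.Core.Empty.Glue.Push
import Vale.Agent.P193.Full.Core.Inst.ZLaws
import Vale.Agent.P193.Full.Core.Facts.Rules

/-! The finitely many facts the pushes need hold eventually. -/

namespace Vale.Agent.P193.Core.Empty.Glue

open Calc Inst Classical Facts

set_option linter.unusedSectionVars false

variable {d : Data} [DecidableEq d.M.A] {F : Calc.Frame (Point d)}

theorem finite_push : Finite Inst.Push :=
  Finite.of_surjective (fun n : Fin 5 =>
    [Inst.Push.theta, .omC, .omD, .omK, .tMap][n.val]'(by simp)) fun p => by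
    cases p
    exacts [⟨0, rfl⟩, ⟨1, rfl⟩, ⟨2, rfl⟩, ⟨3, rfl⟩, ⟨4, rfl⟩]

theorem finite_pred : Finite (Pred d) := by
  have := finite_base (d := d)
  exact Finite.of_surjective (fun B : Base d => B.p) fun p => ⟨⟨.fin, false, p⟩, rfl⟩

theorem set_at1 (B : Base d) : kset (at1 B) = B.set := by
  ext x
  show x ∈ gimg (hT (1 : Outer d)) (gimg (gT (1 : Inner d)) B.set) ↔ _
  rw [mem_gimg_hT, mem_gimg_gT]
  simp

theorem set_pA (p : Inst.Push) (A : Kappa d) (h : Inst.Atom.Dom p A.1) :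
    kset (pA p A h) = gimg p.graph (kset A) := by
  ext x
  show x ∈ gimg (hT (1 : Outer d)) (gimg (gT (1 : Inner d)) (gimg p.graph A.1.set)) ↔ _
  rw [mem_gimg_hT, mem_gimg_gT]
  simp [kset]

theorem set_imA (p : Inst.Push) (s : State d) (b : Bool) (h : p.DomAt s b) :
    kset (imA p s b h) = p.imS s b :=
  (set_pA p _ (dom_domB h)).trans (congrArg (gimg p.graph) (set_at1 _))

theorem mem_var (A : Kappa d) (x : Point d) : x ∈ tsetK (.var A : Tm d) ↔ x ∈ kset A := Iff.rfl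

variable (hG : Core.Good d) (hF : IsCore F)
include hG hF

theorem ev_finFacts : F.Ev (FinFacts (F := F)) := by
  have := Facts.finite_state (d := d)
  have := finite_push
  have := finite_pred (d := d)
  obtain ⟨K, hK⟩ := exists_cosets hG
  -- predicates of the guess state
  have hcl : ∀ b, F.Ev fun M => Never M (.var (at1 (d := d) ⟨.fin, b, .clean⟩)) := fun b =>
    ev_never hG hF _ <| Set.eq_empty_of_forall_notMem fun x hx => by
      rw [mem_var, set_at1] at hx
      have := (show x.st = .guess from hx.2.1).symm.trans (show x.st = .fin from hx.1.1)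
      simp at this
  have hks : ∀ b, F.Ev fun M => Never M (.var (at1 (d := d) ⟨.fin, b, .kSet⟩)) := fun b =>
    ev_never hG hF _ <| Set.eq_empty_of_forall_notMem fun x hx => by
      rw [mem_var, set_at1] at hx
      have := (show x.st = .guess from hx.2.2.1).symm.trans (show x.st = .fin from hx.1.1)
      simp at this
  have hgh : ∀ b, F.Ev fun M => ∀ (h : CtxOK M) (ν : U h),
      Holds h ν (.inter (.var (at1 (d := d) ⟨.fin, b, .gOne⟩)) (.var (at1 ⟨.fin, b, .hOne⟩))) →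
        Holds h ν (.var (at1 ⟨.fin, b, .gHOne⟩)) := fun b =>
    ev_imp hG hF fun x hx => by
      obtain ⟨h1, h2⟩ := hx
      rw [mem_var, set_at1] at h1 h2 ⊢
      exact ⟨h1.1, h1.2, h2.2⟩
  -- nonempty roots
  have hroot : ∀ b, F.Ev fun M => ∀ h : CtxOK M, ∃ ν : U h,
      ν.1 (at1 (d := d) (rootB b)) = true := fun b => by
    let t : Tm d := .var (at1 (rootB b))
    refine ((ev_tfld hG hF t).and (ev_setFld (hasSet_tsetK hG hF t))).mono fun M ⟨e, g⟩ h => ?_
    by_contra hne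
    have h0 := (ctx h).tfld_eq_one_of_forall (t := t) fun ν hν => hne ⟨ν, hν⟩
    let s : Point d := ⟨.fin, .nil, b, match b with | true => .tpush .base | false => .base, 1, 1⟩
    have hs : s ∈ tsetK t := by
      rw [mem_var, set_at1]
      exact ⟨⟨rfl, rfl⟩, rfl⟩
    have h3 := g.2.2.1 (vswap colAB)
    rw [← e h, h0, MonoidHom.one_apply, map_one] at h3
    have h4 := DFunLike.congr_fun h3
      ((hv (Point d)).pre colA ((⟨fun _ => false, ⟨0, fun _ _ => rfl⟩⟩ : Cn), s))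
    rw [restr_apply, hv_pre_snd, if_pos hs, vswap_fwd, Equiv.Perm.one_apply] at h4
    exact colAB.incomp _ _ h4
  -- the point predicate seen through a push
  have hpull : ∀ i : {i : Inst.Push × State d × Bool × Pred d //
      i.1.DomAt i.2.1 i.2.2.1 ∧ pullPred i.1 (.gOne : Pred d) = some i.2.2.2 ∧
        Inst.Atom.Dom i.1 (at1 ⟨i.2.1, i.2.2.1, i.2.2.2⟩).1},
      F.Ev fun M => ∀ (h : CtxOK M) (ν : U h),
        Holds h ν (.inter (.var (imA i.1.1 i.1.2.1 i.1.2.2.1 i.2.1))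
            (.var (at1 ⟨.fin, i.1.1.tag, .gOne⟩))) ↔
          Holds h ν (.inter (.var (imA i.1.1 i.1.2.1 i.1.2.2.1 i.2.1))
            (.var (pA i.1.1 (at1 ⟨i.1.2.1, i.1.2.2.1, i.1.2.2.2⟩) i.2.2.2))) := by
    rintro ⟨⟨p, s, b, Q⟩, hd, hQ, hQd⟩
    refine ev_iff hG hF ?_
    ext x
    simp only [tsetK, Set.mem_inter_iff, set_imA, set_pA, set_at1]
    refine and_congr_right fun hx => ?_
    obtain ⟨y, hy, hyx⟩ := hx
    have hs : y.st = s := hy.1.1
    have hb : y.tag = b := hy.1.2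
    rw [push_pre hG p .gOne hyx, hs, hb, pullSet, hQ]
    refine ⟨fun h => ⟨y, h, hyx⟩, ?_⟩
    rintro ⟨z, hz, hzx⟩
    rwa [(Facts.Gen.isPB hG (Push.gen p)).2 _ _ _ hyx hzx]
  -- cosets
  have hcos : ∀ i : {k : {k // k ∈ K} // k.1 ∉ innerR d} × State d × Bool,
      F.Ev fun M => Never M (.inter (.var (imA .theta i.2.1 i.2.2 trivial))
        (.var (inK (at1 (d := d) ⟨.fin, false, .gOne⟩) i.1.1.1⁻¹))) := fun i =>
    ev_never hG hF _ <| Set.eq_empty_of_forall_notMem fun x ⟨h1, h2⟩ => by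
      obtain ⟨⟨⟨k, hk⟩, hkr⟩, s, b⟩ := i
      obtain ⟨y, -, hy⟩ := (set_imA .theta s b trivial).subset h1
      have h3 : x ∈ gimg (hT (1 : Outer d)) (gimg (gT (1 * k⁻¹))
          (⟨.fin, false, .gOne⟩ : Base d).set) := h2
      rw [mem_gimg_hT, mem_gimg_gT] at h3
      simp only [Push.graph, thetaG, Set.mem_ofPred_eq] at hy
      subst hy
      have h4 : toInner d y.h * (1 * k⁻¹)⁻¹ = 1 := h3.2.2
      rw [one_mul, inv_inv] at h4
      exact hkr (inv_eq_of_mul_eq_one_right h4 ▸ inv_mem ⟨y.h, rfl⟩)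
  -- the final state at the tag without point predicate
  let L : List (Tm d) := .var (imA .tMap .fin false ⟨rfl, rfl⟩) ::
    (Fintype.ofFinite (State d)).elems.toList.map fun s => .var (imA .omC s true rfl)
  have hfin : F.Ev fun M => ∀ (h : CtxOK M) (ν : U h),
      Holds h ν (.var (at1 (d := d) (rootB true))) → Holds h ν (tOr L) :=
    ev_imp hG hF fun x hx => by
      rw [mem_var, set_at1] at hx
      obtain ⟨⟨hs, hb⟩, hh⟩ := hx
      obtain ⟨st, σ, tg, w, g, h⟩ := x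
      cases (show st = .fin from hs)
      cases (show tg = true from hb)
      cases (show h = 1 from hh)
      obtain rfl := path_fin σ
      refine mem_tOr.2 ?_
      cases w with
      | @omC st' τ c k =>
        refine ⟨_, List.mem_cons_of_mem _ (List.mem_map.2
          ⟨st', Finset.mem_toList.2 ((Fintype.ofFinite (State d)).complete _), rfl⟩), ?_⟩
        exact (set_imA .omC st' true rfl).symm.subset
          ⟨⟨st', τ, true, c, g, k⟩, ⟨⟨rfl, rfl⟩, trivial⟩, ⟨_, τ, c, g, k, rfl, rfl⟩⟩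
      | tpush c =>
        refine ⟨_, List.mem_cons_self, ?_⟩
        exact (set_imA .tMap .fin false ⟨rfl, rfl⟩).symm.subset
          ⟨⟨.fin, .nil, false, c, g, 1⟩, ⟨⟨rfl, rfl⟩, rfl⟩, ⟨c, g, rfl, rfl⟩⟩
  refine ((((Frame.Ev.all hcl).and (Frame.Ev.all hks)).and ((Frame.Ev.all hgh).and
    (Frame.Ev.all hroot))).and (((Frame.Ev.all hpull).and (Frame.Ev.all hcos)).and hfin)).mono ?_
  rintro M ⟨⟨⟨h1, h2⟩, h3, h4⟩, ⟨h5, h6⟩, h7⟩
  refine ⟨h1, h2, fun h ν b e e' => h3 b h ν ⟨e, e'⟩, fun h b => h4 b h,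
    fun p s b hd Q hQ hQd h ν hν => ?_,
    ⟨K, hK, fun k hk hkr s b => h6 (⟨⟨k, hk⟩, hkr⟩, s, b)⟩, fun h ν hν => ?_⟩
  · have := h5 ⟨(p, s, b, Q), hd, hQ, hQd⟩ h ν
    exact ⟨fun e => (this.1 ⟨hν, e⟩).2, fun e => (this.2 ⟨hν, e⟩).2⟩
  · obtain ⟨t, ht, hv⟩ := (holds_tOr h ν).1 (h7 h ν hν)
    rcases List.mem_cons.1 ht with rfl | ht
    · exact Or.inr hv
    · obtain ⟨s, -, rfl⟩ := List.mem_map.1 ht
      exact Or.inl ⟨s, hv⟩

/-- Eventually a model is fit for the pushes. -/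
theorem ev_pushEnv : F.Ev fun M => ∀ E : Env M, PushEnv E :=
  ((((ev_covers hG hF).and (ev_pushPull hG hF)).and (ev_thetaCos hG hF)).and
    ((ev_zLaws hG hF).and (ev_finFacts hG hF))).mono
    fun _ ⟨⟨⟨hc, hp⟩, ht⟩, hz, hf⟩ E =>
      ⟨hc, hp E.rig E.laws (hz E.rig E.laws), ht E.rig E.laws, hz E.rig E.laws, hf⟩

end Vale.Agent.P193.Core.Empty.Glue
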