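import Vale.Agent.P193.Full.Core.Empty.Glue.Defs
import Vale.Agent.P193.Full.Core.Inst.EdgePull
import Vale.Agent.P193.Full.Core.Inst.Closed

/-! Edges on virtual points: pushing along an edge is the bijection from the valuations at the
target onto the valuations inside the edge. -/

namespace Vale.Agent.P193.Core.Empty.Glue

open Calc Inst Classical

set_option linter.unusedSectionVars false

variable {d : Data} [DecidableEq d.M.A] {F : Calc.Frame (Point d)}

/-- An atom with an edge in front. -/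
def consE (e : OEdge d) : Atom d → Atom d
  | .base π k m B => .base (e :: π) k m B
  | .push π k m p A => .push (e :: π) k m p A

theorem consE_ok (e : OEdge d) {A : Atom d} (hA : A.Ok) (hs : e.1.tgt = A.st) :
    (consE e A).Ok := by
  cases A with
  | base π k m B => exact ⟨hs, hA⟩
  | push π k m p A => exact ⟨⟨hs, hA.1⟩, hA.2⟩

/-- A predicate with an edge in front. -/
def consEdge (e : OEdge d) (A : Kappa d) (hs : e.1.tgt = A.1.st) : Kappa d :=
  ⟨consE e A.1, consE_ok e A.2 hs⟩

theorem consEdge_st (e : OEdge d) (A : Kappa d) (hs : e.1.tgt = A.1.st) :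
    (consEdge e A hs).1.st = e.1.src ∧ (consEdge e A hs).1.tag = A.1.tag := by
  obtain ⟨A, hA⟩ := A
  cases A <;> exact ⟨rfl, rfl⟩

theorem outK_consEdge (e : OEdge d) (A : Kappa d) (hs : e.1.tgt = A.1.st) (t : Outer d)
    (hs' : e.1.tgt = (outK A t).1.st) : outK (consEdge e A hs) t = consEdge e (outK A t) hs' := by
  obtain ⟨A, hA⟩ := A
  cases A <;> rfl

theorem inK_consEdge (e : OEdge d) (A : Kappa d) (hs : e.1.tgt = A.1.st) (t : Inner d)
    (hs' : e.1.tgt = (inK A t).1.st) : inK (consEdge e A hs) t = consEdge e (inK A t) hs' := by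
  obtain ⟨A, hA⟩ := A
  cases A <;> rfl

theorem outK_st (A : Kappa d) (t : Outer d) :
    (outK A t).1.st = A.1.st ∧ (outK A t).1.tag = A.1.tag := by
  obtain ⟨A, hA⟩ := A
  cases A <;> exact ⟨rfl, rfl⟩

theorem inK_st (A : Kappa d) (t : Inner d) :
    (inK A t).1.st = A.1.st ∧ (inK A t).1.tag = A.1.tag := by
  obtain ⟨A, hA⟩ := A
  cases A <;> exact ⟨rfl, rfl⟩

/-- The valuations at a tag whose path begins with an edge. -/
def edgeA (e : OEdge d) (b : Bool) : Kappa d := consEdge e (at1 (stB e.1.tgt b)) rfl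

/-- A predicate without path. -/
def flat (k : Outer d) (m : Inner d) (B : Base d) : Kappa d := ⟨.base [] k m B, trivial⟩

theorem flat_eq (k : Outer d) (m : Inner d) (B : Base d) :
    flat k m B = outK (inK (at1 B) m) k := by
  simp [flat, outK, inK, at1, Atom.inShift, Atom.outShift]

theorem edge_src_ne_fin {e : Edge d} (he : e.OK) : e.src ≠ .fin := by
  cases he with
  | flood src p s h => cases h <;> simp
  | floodEnd src p s h hp => cases h <;> simp
  | _ => simp

theorem kappa_cases (A : Kappa d) :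
    (∃ e A', ∃ hs : e.1.tgt = A'.1.st, A = consEdge e A' hs) ∨ (∃ k m B, A = flat k m B) ∨
      A.1.st = .fin := by
  obtain ⟨A, hA⟩ := A
  cases A with
  | base π k m B =>
    cases π with
    | nil => exact Or.inr (Or.inl ⟨k, m, B, rfl⟩)
    | cons e π => exact Or.inl ⟨e, ⟨.base π k m B, hA.2⟩, hA.1, rfl⟩
  | push π k m p A =>
    cases π with
    | nil => exact Or.inr (Or.inr rfl)
    | cons e π => exact Or.inl ⟨e, ⟨.push π k m p A, ⟨hA.1.2, hA.2⟩⟩, hA.1.1, rfl⟩

/-- How an elementary predicate at the source is seen from the target. -/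
noncomputable def preP (e : Edge d) : Pred d → Option (Outer d × Inner d × Pred d)
  | .full => some (1, 1, .full)
  | .hOne => some ((eT e)⁻¹, 1, .hOne)
  | .zOne => some (1, 1, .zOne)
  | .zFront s => some (1, 1, .zFront s)
  | .clean =>
    if e.src = .guess then
      match e.kind with
      | .letter _ => some (1, 1, .clean)
      | .junk => none
      | .other => some (1, 1, .full)
    else none
  | .gOne => some (1, 1, .gOne)
  | .kSet =>
    if e.src = .guess then
      match e.kind with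
      | .letter j => some (1, (d.gen j)⁻¹, .kSet)
      | _ => some (1, 1, .gOne)
    else none
  | .gHOne => some ((eT e)⁻¹, 1, .gHOne)

/-- The term that never holds. -/
def emptyT : Tm d := .diff .full .full

/-- An elementary predicate inside an edge, as a term. -/
noncomputable def preT (e : OEdge d) (b : Bool) (p : Pred d) : Tm d :=
  match preP e.1 p with
  | none => emptyT
  | some (k, m, q) => .var (consEdge e (flat k m ⟨e.1.tgt, b, q⟩) rfl)

theorem gimg_iff {γ : Set (Point d × Point d)} (hγ : IsPB γ) {y x : Point d} (hyx : (y, x) ∈ γ)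
    (X : Set (Point d)) : x ∈ Facts.gimg γ X ↔ y ∈ X :=
  ⟨fun ⟨z, hz, hzx⟩ => hγ.2 z y x hzx hyx ▸ hz, fun h => ⟨y, h, hyx⟩⟩

theorem edge_trace (e : OEdge d) (b : Bool) (p : Pred d) {x : Point d}
    (hx : x ∈ kset (edgeA e b)) :
    x ∈ (⟨e.1.src, b, p⟩ : Base d).set ↔ x ∈ tsetK (preT e b p) := by
  obtain ⟨e, he⟩ := e
  obtain ⟨y, hy, σ, c, w, g, h, rfl, rfl⟩ := hx
  obtain ⟨⟨-, hc⟩, -⟩ := Facts.mem_gimg_gT.1 (Facts.mem_gimg_hT.1 hy)
  obtain rfl : c = b := hc
  have key : ∀ k m q, (⟨e.src, .cons e he σ, c, w, g, (1, e.pval, e.qval) * h⟩ : Point d) ∈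
      kset (consEdge ⟨e, he⟩ (flat k m ⟨e.tgt, c, q⟩) rfl) ↔
      (⟨e.tgt, σ, c, w, g * m⁻¹, h * k⁻¹⟩ : Point d) ∈ (⟨e.tgt, c, q⟩ : Base d).set := by
    intro k m q
    refine (gimg_iff (Facts.isPB_edgeG e he) ⟨σ, c, w, g, h, rfl, rfl⟩
      (Facts.gimg (Facts.hT k) (Facts.gimg (Facts.gT m) (⟨e.tgt, c, q⟩ : Base d).set))).trans ?_
    rw [Facts.mem_gimg_hT, Facts.mem_gimg_gT]
  have hno : ∀ z, z ∉ tsetK (emptyT (d := d)) := fun z hz => hz.2 trivial
  cases p with
  | clean =>
    by_cases hs : e.src = .guess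
    · cases hk : e.kind with
      | letter j =>
        obtain rfl := Facts.edge_letter_eq he hk
        simp only [preT, preP, hs, hk, if_true]
        refine Iff.trans ?_ (key 1 1 .clean).symm
        exact ⟨fun ⟨⟨_, h2⟩, h3⟩ => ⟨⟨rfl, h2⟩, rfl, h3.2⟩,
          fun ⟨⟨_, h2⟩, h3⟩ => ⟨⟨hs, h2⟩, hs, h3.2⟩⟩
      | junk =>
        simp only [preT, preP, hs, hk, if_true]
        exact iff_of_false (fun h' => by simpa [Core.clean, hk] using h'.2.2) (hno _)
      | other =>
        simp only [preT, preP, hs, hk, if_true]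
        refine Iff.trans ?_ (key 1 1 .full).symm
        exact ⟨fun _ => ⟨⟨rfl, rfl⟩, trivial⟩,
          fun _ => ⟨⟨hs, rfl⟩, hs, by simp [Core.clean, hk]⟩⟩
    · simp only [preT, preP, hs, if_false]
      exact iff_of_false (fun h' => hs h'.2.1) (hno _)
  | kSet =>
    by_cases hs : e.src = .guess
    · cases hk : e.kind with
      | letter j =>
        obtain rfl := Facts.edge_letter_eq he hk
        simp only [preT, preP, hs, hk, if_true]
        refine Iff.trans ?_ (key 1 (d.gen j)⁻¹ .kSet).symm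
        simp only [Base.set, Pred.set, Set.mem_inter_iff, Facts.atS, tagIs, Facts.kOneS,
          Set.mem_ofPred_eq, inv_inv, inv_one, mul_one, Facts.letterE, true_and]
        refine and_congr Iff.rfl ?_
        show d.gen j * guessVal d σ * g = 1 ↔ guessVal d σ * (g * d.gen j) = 1
        rw [mul_assoc, mul_eq_one_comm, mul_assoc]
      | _ =>
        simp only [preT, preP, hs, hk, if_true]
        refine Iff.trans ?_ (key 1 1 .gOne).symm
        simp only [Base.set, Pred.set, Set.mem_inter_iff, Facts.atS, tagIs, Facts.kOneS,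
          Facts.gOneS, Set.mem_ofPred_eq, inv_one, mul_one, true_and, hs,
          Facts.guessVal_cons_not_letter he (fun j => by simp [hk]), one_mul]
    · simp only [preT, preP, hs, if_false]
      exact iff_of_false (fun h' => hs h'.2.2.1) (hno _)
  | full =>
    refine Iff.trans ?_ (key 1 1 .full).symm
    exact ⟨fun _ => ⟨⟨rfl, rfl⟩, trivial⟩, fun _ => ⟨⟨rfl, rfl⟩, trivial⟩⟩
  | hOne =>
    refine Iff.trans ?_ (key (eT e)⁻¹ 1 .hOne).symm
    simp only [Base.set, Pred.set, Set.mem_inter_iff, Facts.atS, tagIs, Facts.hOneS,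
      Set.mem_ofPred_eq, inv_inv, true_and, eT]
    exact mul_eq_one_comm
  | zOne =>
    refine Iff.trans ?_ (key 1 1 .zOne).symm
    simp only [Base.set, Pred.set, Set.mem_inter_iff, Facts.atS, tagIs, Facts.zOneS,
      Set.mem_ofPred_eq, inv_one, mul_one, true_and, Facts.zval_edge]
  | zFront s =>
    refine Iff.trans ?_ (key 1 1 (.zFront s)).symm
    simp only [Base.set, Pred.set, Set.mem_inter_iff, Facts.atS, tagIs, Facts.zFrontS,
      Set.mem_ofPred_eq, inv_one, mul_one, true_and, Facts.zval_edge]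
  | gOne =>
    refine Iff.trans ?_ (key 1 1 .gOne).symm
    simp only [Base.set, Pred.set, Set.mem_inter_iff, Facts.atS, tagIs, Facts.gOneS,
      Set.mem_ofPred_eq, inv_one, mul_one, true_and]
  | gHOne =>
    refine Iff.trans ?_ (key (eT e)⁻¹ 1 .gHOne).symm
    simp only [Base.set, Pred.set, Set.mem_inter_iff, Facts.atS, tagIs, Facts.hOneS, Facts.gOneS,
      Set.mem_ofPred_eq, inv_inv, inv_one, mul_one, true_and, eT]
    exact Iff.and Iff.rfl mul_eq_one_comm

/-- The facts used on edges. -/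
structure EdgeFacts (M : F.Model) : Prop where
  covers : Covers M
  cover : ∀ (h : CtxOK M) (ν : U h) (s : State d) (b : Bool), s ≠ .fin → At h ν s b →
    ∃ e : OEdge d, ν.1 (edgeA e b) = true
  trace : ∀ (h : CtxOK M) (ν : U h) (e : OEdge d) (b : Bool) (p : Pred d),
    ν.1 (edgeA e b) = true → (ν.1 (at1 ⟨e.1.src, b, p⟩) = true ↔ Holds h ν (preT e b p))

theorem ev_edgeFacts (hG : Core.Good d) (hF : IsCore F) :
    F.Ev fun M => EdgeFacts M := by
  have : Finite (OEdge d) := (Facts.finite_edges (d := d)).to_subtype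
  have := Fintype.ofFinite (OEdge d)
  have := Facts.finite_state (d := d)
  have := finite_base (d := d)
  let l : Bool → List (Tm d) := fun b =>
    (Finset.univ : Finset (OEdge d)).toList.map fun e => .var (edgeA e b)
  refine (((ev_covers hG hF).and (Frame.Ev.all fun q : State d × Bool =>
    ev_never hG hF (if q.1 = .fin then emptyT else .diff (cellT q.1 q.2) (tOr (l q.2))) ?_)).and
    (Frame.Ev.all fun q : OEdge d × Base d =>
      ev_iff hG hF (a := .inter (.var (edgeA q.1 q.2.b)) (.var (at1 ⟨q.1.1.src, q.2.b, q.2.p⟩)))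
        (b := .inter (.var (edgeA q.1 q.2.b)) (preT q.1 q.2.b q.2.p)) ?_)).mono ?_
  · obtain ⟨s, b⟩ := q
    split_ifs with hs
    · exact Set.eq_empty_of_forall_notMem fun x hx => hx.2 trivial
    refine Set.eq_empty_of_forall_notMem fun x hx => hx.2 (mem_tOr.2 ?_)
    obtain ⟨⟨h1, h2⟩, -⟩ := Facts.mem_gimg_gT.1 (Facts.mem_gimg_hT.1 hx.1)
    obtain ⟨st, σ, c, w, g, k⟩ := x
    obtain rfl : st = s := h1
    obtain rfl : c = b := h2
    cases σ with
    | nil => exact absurd rfl hs
    | cons e he τ =>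
      refine ⟨.var (edgeA ⟨e, he⟩ c), List.mem_map.2 ⟨_, by simp, rfl⟩,
        ⟨e.tgt, τ, c, w, g, (1, e.pval, e.qval)⁻¹ * k⟩,
        Facts.mem_gimg_hT.2 (Facts.mem_gimg_gT.2 ⟨⟨rfl, rfl⟩, trivial⟩),
        τ, c, w, g, _, rfl, ?_⟩
      simp [← mul_assoc]
  · have hA : kset (at1 ⟨q.1.1.src, q.2.b, q.2.p⟩) = (⟨q.1.1.src, q.2.b, q.2.p⟩ : Base d).set := by
      show Facts.gimg (Facts.hT 1) (Facts.gimg (Facts.gT 1) _) = _
      rw [gimg_hT_one, gimg_gT_one]
    ext x
    simp only [tsetK, Set.mem_inter_iff, hA]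
    exact and_congr_right fun hx => edge_trace q.1 q.2.b q.2.p hx
  rintro M ⟨⟨hc, hcov⟩, htr⟩
  refine ⟨hc, fun h ν s b hs hν => ?_, fun h ν e b p hν => ?_⟩
  · have hn := hcov (s, b) h ν
    rw [if_neg hs] at hn
    by_contra hne
    refine hn ⟨hν, fun ht => ?_⟩
    obtain ⟨t, ht, hv⟩ := (holds_tOr h ν).1 ht
    obtain ⟨e, -, rfl⟩ := List.mem_map.1 ht
    exact hne ⟨e, hv⟩
  · have := htr (e, ⟨e.1.src, b, p⟩) h ν
    exact ⟨fun h' => (this.1 ⟨hν, h'⟩).2, fun h' => (this.2 ⟨hν, h'⟩).2⟩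

variable {M : F.Model} (E : Env M)

theorem holds_emptyT (ν : Pt E) : ¬ Holds E.ctx ν emptyT := fun h => h.2 trivial

theorem kfld_consEdge (e : OEdge d) (A : Kappa d) (hs : e.1.tgt = A.1.st) :
    kfld M (consEdge e A hs) = cj (edgeX M e) (kfld M A) := by
  obtain ⟨A, hA⟩ := A
  cases A with
  | base π k m B => exact fld_base_cons e π k m B
  | push π k m p A => exact fld_push_cons e π k m p A

include E in
theorem kfld_edgeA (e : OEdge d) (b : Bool) :
    kfld M (edgeA e b) = setFld M (edgeTS e b) := by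
  refine (kfld_consEdge e _ _).trans ?_
  rw [fld_at1 E.rig, E.rig.edge_img]

include E in
theorem le_edgeA (e : OEdge d) (A : Kappa d) (hs : e.1.tgt = A.1.st) :
    Calc.Le (kfld M (consEdge e A hs)) (kfld M (edgeA e A.1.tag)) := by
  unfold edgeA
  refine (kfld_consEdge e A hs).symm ▸ (kfld_consEdge e _ _).symm ▸ le_cj _ ?_
  rw [fld_at1 E.rig, hs]
  exact E.rig.le_st A.2

theorem edgeA_unique {e e' : OEdge d} {b b' : Bool} {ν : Pt E} (h1 : ν.1 (edgeA e b) = true)
    (h2 : ν.1 (edgeA e' b') = true) : e = e' ∧ b = b' := by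
  by_contra hne
  refine not_both E.ctx ?_ ν h1 h2
  rw [kfld_edgeA E, kfld_edgeA E]
  exact E.rig.edgeT_disj e e' b b' (Classical.not_and_iff_not_or_not.1 hne)

theorem edgeA_out {e : OEdge d} {b : Bool} (t : Outer d) (ν : Pt E) :
    (vH E t ν).1 (edgeA e b) = ν.1 (edgeA e b) := by
  rw [hAct_val]
  refine val_congr E.ctx ?_ ν
  rw [kfld_edgeA E, show kfld M (outK (edgeA e b) t) = cj (outX M t) (kfld M (edgeA e b)) from
    E.rig.fld_outShift E.laws (edgeA e b).2 t, kfld_edgeA E, E.rig.out_fix_edgeT]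

theorem edgeA_in {e : OEdge d} {b : Bool} (t : Inner d) (ν : Pt E) :
    (vG E t ν).1 (edgeA e b) = ν.1 (edgeA e b) := by
  rw [gAct_val]
  refine val_congr E.ctx ?_ ν
  rw [kfld_edgeA E, show kfld M (inK (edgeA e b) t) = cj (inX M t) (kfld M (edgeA e b)) from
    E.rig.fld_inShift E.laws (edgeA e b).2 t, kfld_edgeA E, E.rig.in_fix_edgeT]

theorem at_edgeA {e : OEdge d} {b : Bool} {ν : Pt E} (h : ν.1 (edgeA e b) = true) :
    At E.ctx ν e.1.src b := at_of_val (A := edgeA e b) E.ctx E.rig h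

/-- The predicates at the target, seen inside the edge. -/
noncomputable def edgeK (e : OEdge d) (b : Bool) (A : Kappa d) : Tm d :=
  if h : e.1.tgt = A.1.st ∧ A.1.tag = b then .var (consEdge e A h.1) else emptyT

variable (Φ : EdgeFacts M)

include Φ in
theorem edge_span (e : OEdge d) (b : Bool) (A : Kappa d) :
    ∃ t : Tm d, ∀ ν : Pt E, ν.1 (edgeA e b) = true →
      (ν.1 A = true ↔ Holds E.ctx ν ((ctx E.ctx).tsub (.var (edgeA e b)) (edgeK e b) t)) := by
  have hnever : (∀ ν : Pt E, ν.1 (edgeA e b) = true → ν.1 A ≠ true) →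
      ∃ t : Tm d, ∀ ν : Pt E, ν.1 (edgeA e b) = true →
      (ν.1 A = true ↔ Holds E.ctx ν ((ctx E.ctx).tsub (.var (edgeA e b)) (edgeK e b) t)) :=
    fun h => ⟨emptyT, fun ν hν => iff_of_false (h ν hν) fun h' => h'.2 h'.1⟩
  have hvar : ∀ (A' : Kappa d) (hs : e.1.tgt = A'.1.st), A'.1.tag = b →
      ∀ ν : Pt E, ν.1 (edgeA e b) = true →
      (ν.1 (consEdge e A' hs) = true ↔
        Holds E.ctx ν ((ctx E.ctx).tsub (.var (edgeA e b)) (edgeK e b) (.var A'))) := by
    intro A' hs hb ν hν
    show _ ↔ ν.1 (edgeA e b) = true ∧ Holds E.ctx ν (edgeK e b A')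
    rw [edgeK, dif_pos ⟨hs, hb⟩]
    exact ⟨fun h => ⟨hν, h⟩, fun h => h.2⟩
  rcases kappa_cases A with ⟨e', A', hs, rfl⟩ | ⟨k, m, B, rfl⟩ | hfin
  · by_cases hh : e' = e ∧ A'.1.tag = b
    · obtain ⟨rfl, hb⟩ := hh
      exact ⟨.var A', hvar A' hs hb⟩
    · refine hnever fun ν hν hA => hh ?_
      exact edgeA_unique E (val_le E.ctx (le_edgeA E e' A' hs) ν hA) hν
  · by_cases hB : B.s = e.1.src ∧ B.b = b
    · obtain ⟨s, c, p⟩ := B
      obtain ⟨rfl, rfl⟩ := hB
      cases hp : preP e.1 p with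
      | none =>
        refine hnever fun ν hν hA => ?_
        have hμ : (vG E m (vH E k ν)).1 (edgeA e c) = true := by
          rw [edgeA_in, edgeA_out, hν]
        have h1 := (Φ.trace E.ctx _ e c p hμ).1 (by rw [gAct_val, hAct_val, ← flat_eq]; exact hA)
        simp only [preT, hp] at h1
        exact holds_emptyT E _ h1
      | some v =>
        obtain ⟨k₀, m₀, q⟩ := v
        refine ⟨.var (flat (k₀ * k) (m₀ * m) ⟨e.1.tgt, c, q⟩), fun ν hν => ?_⟩
        refine Iff.trans ?_ (hvar _ rfl rfl ν hν)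
        have hμ : (vG E m (vH E k ν)).1 (edgeA e c) = true := by
          rw [edgeA_in, edgeA_out, hν]
        have h1 := Φ.trace E.ctx _ e c p hμ
        simp only [preT, hp] at h1
        rw [gAct_val, hAct_val, ← flat_eq] at h1
        exact h1
    · refine hnever fun ν hν hA => hB ?_
      exact at_unique E.ctx E.rig (at_of_val (A := flat k m B) E.ctx E.rig hA) (at_edgeA E hν)
  · refine hnever fun ν hν hA => edge_src_ne_fin e.2 ?_
    rw [← hfin]
    exact ((at_unique E.ctx E.rig (at_of_val E.ctx E.rig hA) (at_edgeA E hν)).1).symm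

/-- The move along an edge at a tag. -/
noncomputable def edgeMove (e : OEdge d) (b : Bool) : Move E.ctx where
  x := edgeX M e
  D := cellT e.1.tgt b
  E := .var (edgeA e b)
  k := edgeK e b
  hD := (kfld_consEdge e _ rfl).symm
  hk A := by
    by_cases h : e.1.tgt = A.1.st ∧ A.1.tag = b
    · rw [edgeK, dif_pos h]
      rw [tfld_ext E.ctx (a := .inter (cellT e.1.tgt b) (.var A)) (b := .var A)
        fun ν => ⟨fun h' => h'.2, fun h' => ⟨by
          have := at_of_val E.ctx E.rig (A := A) h'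
          rwa [← h.1, h.2] at this, h'⟩⟩,
        tfld_ext E.ctx (a := .inter (.var (edgeA e b)) (.var (consEdge e A h.1)))
          (b := .var (consEdge e A h.1))
        fun ν => ⟨fun h' => h'.2, fun h' => ⟨by
          have := val_le E.ctx (le_edgeA E e A h.1) ν h'
          rwa [h.2] at this, h'⟩⟩]
      exact (kfld_consEdge e A h.1).symm
    · rw [edgeK, dif_neg h]
      rw [tfld_ext E.ctx (a := .inter (cellT e.1.tgt b) (.var A)) (b := emptyT)
        fun ν => iff_of_false (fun h' => h (by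
          obtain ⟨h1, h2⟩ := at_unique E.ctx E.rig h'.1 (at_of_val E.ctx E.rig (A := A) h'.2)
          exact ⟨h1, h2.symm⟩)) (holds_emptyT E ν),
        tfld_ext E.ctx (a := .inter (.var (edgeA e b)) emptyT) (b := emptyT)
          fun ν => iff_of_false (fun h' => holds_emptyT E ν h'.2) (holds_emptyT E ν)]
      have h1 : (ctx E.ctx).tfld emptyT = 1 :=
        (ctx E.ctx).tfld_eq_one_of_forall fun ν => holds_emptyT E ν
      rw [h1]
      ext v
      simp
  span := edge_span E Φ e b

/-- An edge on valuations. -/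
noncomputable def vedge (e : Edge d) (v : Pt E) : Pt E :=
  if he : e.OK then (edgeMove E Φ ⟨e, he⟩ (vtag E v)).push v else v

variable {Φ} {e : Edge d} {v : Pt E} (he : e.OK) (hv : vst E v = e.tgt)

include Φ hv in
theorem mem_cell : Holds E.ctx v (cellT e.tgt (vtag E v)) := hv ▸ at_vst E Φ.covers v

include hv in
theorem vedge_mem : (vedge E Φ e v).1 (edgeA ⟨e, he⟩ (vtag E v)) = true := by
  rw [vedge, dif_pos he]
  exact (edgeMove E Φ ⟨e, he⟩ (vtag E v)).push_mem (mem_cell E (Φ := Φ) hv)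

include he hv

theorem vedge_at : vst E (vedge E Φ e v) = e.src ∧ vtag E (vedge E Φ e v) = vtag E v :=
  vst_eq E Φ.covers (at_edgeA E (vedge_mem E (Φ := Φ) he hv))

/-- A predicate at the target holds after the edge as it held before. -/
theorem vedge_val (A : Kappa d) (hA : (⟨e, he⟩ : OEdge d).1.tgt = A.1.st) :
    (vedge E Φ e v).1 (consEdge ⟨e, he⟩ A hA) = v.1 A := by
  by_cases hb : A.1.tag = vtag E v
  · rw [Bool.eq_iff_iff, vedge, dif_pos he]
    have := (edgeMove E Φ ⟨e, he⟩ (vtag E v)).push_val (mem_cell E (Φ := Φ) hv) A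
    rwa [show (edgeMove E Φ ⟨e, he⟩ (vtag E v)).k A = .var (consEdge ⟨e, he⟩ A hA) from
      dif_pos ⟨hA, hb⟩] at this
  · rw [Bool.eq_iff_iff]
    refine iff_of_false (fun h => hb ?_) (fun h => hb ?_)
    · have h1 := at_of_val (A := consEdge ⟨e, he⟩ A hA) E.ctx E.rig h
      exact ((consEdge_st _ A hA).2).symm.trans
        (at_unique E.ctx E.rig h1 (at_edgeA E (vedge_mem E (Φ := Φ) he hv))).2
    · exact ((vst_of_val E Φ.covers h).2).symm

/-- A valuation inside the edge with the values of `v` at the target is the edge of `v`. -/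
theorem eq_vedge {μ : Pt E} (hμ : μ.1 (edgeA ⟨e, he⟩ (vtag E v)) = true)
    (h : ∀ (A : Kappa d) (hA : (⟨e, he⟩ : OEdge d).1.tgt = A.1.st),
      μ.1 (consEdge ⟨e, he⟩ A hA) = v.1 A) : μ = vedge E Φ e v := by
  let mv := edgeMove E Φ ⟨e, he⟩ (vtag E v)
  have hp : mv.pop μ = v := Subtype.ext (funext fun A => by
    rw [Bool.eq_iff_iff, mv.pop_val hμ]
    show Holds E.ctx μ (edgeK _ _ A) ↔ _
    rw [edgeK]
    by_cases hc : (⟨e, he⟩ : OEdge d).1.tgt = A.1.st ∧ A.1.tag = vtag E v
    · rw [dif_pos hc]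
      show μ.1 _ = true ↔ _
      rw [h A hc.1]
    · rw [dif_neg hc]
      refine iff_of_false (holds_emptyT E μ) fun hA => hc ?_
      obtain ⟨h1, h2⟩ := vst_of_val E Φ.covers hA
      exact ⟨hv.symm.trans h1, h2.symm⟩)
  rw [vedge, dif_pos he]
  conv_lhs => rw [← mv.push_pop hμ, hp]

theorem edge_st : vst E (vedge E Φ e v) = e.src := (vedge_at E he hv).1

theorem edge_tag : vtag E (vedge E Φ e v) = vtag E v := (vedge_at E he hv).2

/-- An elementary predicate after an edge, read before it. -/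
theorem vedge_pred (p : Pred d) :
    P E.ctx (vedge E Φ e v) p ↔
      match preP e p with
      | none => False
      | some (k, m, q) => P E.ctx (vG E m (vH E k v)) q := by
  rw [P_at E Φ.covers, (vedge_at E he hv).1, (vedge_at E he hv).2]
  rw [Φ.trace E.ctx _ ⟨e, he⟩ (vtag E v) p (vedge_mem E (Φ := Φ) he hv)]
  unfold preT
  cases hp : preP e p with
  | none => exact iff_of_false (holds_emptyT E _) id
  | some x =>
    obtain ⟨k, m, q⟩ := x
    refine (Bool.eq_iff_iff.1 (vedge_val E he hv _ _)).trans ?_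
    simp only
    rw [P_at E Φ.covers, (vst_in E Φ.covers m _).1, (vst_in E Φ.covers m _).2,
      (vst_out E Φ.covers k v).1, (vst_out E Φ.covers k v).2, gAct_val, hAct_val, ← flat_eq, hv]

theorem vedge_pred_same {p : Pred d} (hp : preP e p = some (1, 1, p)) :
    P E.ctx (vedge E Φ e v) p = P E.ctx v p := by
  rw [eq_iff_iff, vedge_pred E he hv, hp]
  simp only [map_one, Equiv.Perm.one_apply]

theorem edge_fr : vfr E (vedge E Φ e v) = vfr E v := by
  have h1 : P E.ctx (vedge E Φ e v) .zOne = P E.ctx v .zOne := vedge_pred_same E he hv rfl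
  have h2 : ∀ s, P E.ctx (vedge E Φ e v) (.zFront s) = P E.ctx v (.zFront s) :=
    fun s => vedge_pred_same E he hv rfl
  simp only [vfr, h1, h2]

theorem edge_gOne : vgOne E (vedge E Φ e v) ↔ vgOne E v :=
  iff_of_eq (vedge_pred_same E he hv rfl)

theorem edge_hOne : vhOne E (vedge E Φ e v) ↔ vhOne E (vH E (eT e)⁻¹ v) := by
  refine (vedge_pred E he hv .hOne).trans ?_
  simp only [preP, map_one, Equiv.Perm.one_apply]
  rfl

theorem edge_cl_letter (i : Fin d.n) (hk : e.kind = .letter i) :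
    vcl E (vedge E Φ e v) ↔ vcl E v := by
  obtain rfl := Facts.edge_letter_eq he hk
  exact iff_of_eq (vedge_pred_same E he hv (by simp [preP, Facts.letterE]))

theorem edge_cl_junk (hk : e.kind = .junk) : ¬ vcl E (vedge E Φ e v) := by
  intro h
  have := (vedge_pred E he hv .clean).1 h
  by_cases hs : e.src = .guess <;> simp [preP, hs, hk] at this

theorem edge_cl_other (hk : e.kind = .other) : vcl E (vedge E Φ e v) ↔ e.src = .guess := by
  refine (vedge_pred E he hv .clean).trans ?_
  by_cases hs : e.src = .guess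
  · simp only [preP, hs, hk, if_true, map_one, Equiv.Perm.one_apply, iff_true]
    exact (P_at E Φ.covers v .full).2 (at_vst E Φ.covers v)
  · simp [preP, hs]

theorem edge_k_letter (i : Fin d.n) (hk : e.kind = .letter i) :
    vkOne E (vedge E Φ e v) ↔ vkOne E (vG E (d.gen i)⁻¹ v) := by
  obtain rfl := Facts.edge_letter_eq he hk
  refine (vedge_pred E he hv .kSet).trans ?_
  simp only [preP, Facts.letterE, if_true, map_one, Equiv.Perm.one_apply]
  rfl

theorem edge_k_other (hk : ∀ i, e.kind ≠ .letter i) :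
    vkOne E (vedge E Φ e v) ↔ e.src = .guess ∧ vgOne E v := by
  refine (vedge_pred E he hv .kSet).trans ?_
  by_cases hs : e.src = .guess
  · cases h : e.kind with
    | letter i => exact absurd h (hk i)
    | _ =>
      simp only [preP, hs, h, if_true, map_one, Equiv.Perm.one_apply, true_and]
      rfl
  · simp [preP, hs]

theorem edge_h (t : Outer d) : vH E t (vedge E Φ e v) = vedge E Φ e (vH E t v) := by
  obtain ⟨h1, h2⟩ := vst_out E Φ.covers t v
  refine eq_vedge E he (h1.trans hv) ?_ fun A hA => ?_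
  · rw [h2, edgeA_out]
    exact vedge_mem E he hv
  · rw [hAct_val, outK_consEdge _ A hA t (by rw [(outK_st A t).1]; exact hA),
      vedge_val E he hv, hAct_val]

theorem edge_g (k : Inner d) : vG E k (vedge E Φ e v) = vedge E Φ e (vG E k v) := by
  obtain ⟨h1, h2⟩ := vst_in E Φ.covers k v
  refine eq_vedge E he (h1.trans hv) ?_ fun A hA => ?_
  · rw [h2, edgeA_in]
    exact vedge_mem E he hv
  · rw [gAct_val, inK_consEdge _ A hA k (by rw [(inK_st A k).1]; exact hA),
      vedge_val E he hv, gAct_val]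

omit he hv

theorem edge_decomp (Φ : EdgeFacts M) (u : Pt E) (hu : vst E u ≠ .fin) :
    ∃ e : Edge d, e.OK ∧ e.src = vst E u ∧ ∃ v, vst E v = e.tgt ∧ vedge E Φ e v = u := by
  obtain ⟨e, he⟩ := Φ.cover E.ctx u _ (vtag E u) hu (at_vst E Φ.covers u)
  have hu' := vst_eq E Φ.covers (at_edgeA E he)
  refine ⟨e.1, e.2, hu'.1.symm, ?_⟩
  let mv := edgeMove E Φ e (vtag E u)
  obtain ⟨h1, h2⟩ := vst_eq E Φ.covers (mv.pop_mem he)
  refine ⟨mv.pop u, h1, ?_⟩
  rw [vedge, dif_pos e.2, h2]
  exact mv.push_pop he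

theorem edge_inj (Φ : EdgeFacts M) (e e' : Edge d) (v v' : Pt E) (he : e.OK) (he' : e'.OK)
    (hv : vst E v = e.tgt) (hv' : vst E v' = e'.tgt)
    (h : vedge E Φ e v = vedge E Φ e' v') : e = e' ∧ v = v' := by
  have m1 := vedge_mem E (Φ := Φ) he hv
  rw [h] at m1
  obtain ⟨he1, hb⟩ := edgeA_unique E m1 (vedge_mem E (Φ := Φ) he' hv')
  obtain rfl : e = e' := congrArg Subtype.val he1
  refine ⟨rfl, ?_⟩
  rw [vedge, vedge, dif_pos he, dif_pos he, ← hb] at h
  exact (edgeMove E Φ ⟨e, he⟩ (vtag E v)).push_inj (mem_cell E (Φ := Φ) hv)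
    (hb ▸ mem_cell E (Φ := Φ) hv') h

end Vale.Agent.P193.Core.Empty.Glue
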