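import Vale.Agent.P193.Full.Core.Empty.Glue.UMove
import Vale.Agent.P193.Full.Core.Empty.Glue.Edge

/-! The maps of edges on valuations have what the guessed-value maps use, so `uM_letter` and
`uM_other` hold for them. -/

namespace Vale.Agent.P193.Core.Empty.Glue

open Calc Inst Classical

variable {d : Data} [DecidableEq d.M.A] {F : Calc.Frame (Point d)} {M : F.Model}

theorem consK_eq (e : OEdge d) (A : Kappa d) (h : A.1.st = e.1.tgt) :
    consK e A h = consEdge e A h.symm := by
  obtain ⟨A, hA⟩ := A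
  cases A <;> rfl

/-- The edge maps satisfy the specification used by `UMove`. -/
theorem edgeSpec (E : Env M) (Φ : EdgeFacts M) : EdgeSpec E (vedge E Φ) where
  val e v A hA hv _ := by rw [consK_eq]; exact vedge_val E e.2 hv A hA.symm
  pop e b ν h := by
    have h' : ν.1 (edgeA e b) = true :=
      (congrArg ν.1 (consK_eq e (at1 (stB e.1.tgt b)) rfl)).symm.trans h
    let mv := edgeMove E Φ e b
    obtain ⟨h1, h2⟩ := vst_eq E Φ.covers (mv.pop_mem h')
    refine ⟨mv.pop ν, h1, h2, ?_⟩
    rw [vedge, dif_pos e.2, h2]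
    exact mv.push_pop h'

/-- `uM_other` for the edge maps. -/
theorem vedge_vU_other (E : Env M) (u : UFacts M) (Φ : EdgeFacts M) (j : Fin 3) (e : Edge d)
    (v : Pt E) (he : e.OK) (hk : ∀ i, e.kind ≠ .letter i) (hv : vst E v = e.tgt) :
    vU E u j (vedge E Φ e v) = vedge E Φ e v :=
  vU_other E u (edgeSpec E Φ) j e v he hk hv

/-- `uM_letter` for the edge maps. -/
theorem vedge_vU_letter (E : Env M) (u : UFacts M) (Φ : EdgeFacts M) (j : Fin 3) (e : Edge d)
    (i : Fin d.n) (v : Pt E) (he : e.OK) (hi : e.kind = .letter i) (hv : vst E v = e.tgt)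
    (hb : vtag E v = true) :
    vU E u j (vedge E Φ e v) = vedge E Φ e (vU E u j (vG E (Facts.proj j (d.gen i))⁻¹ v)) :=
  vU_letter E u (edgeSpec E Φ) j e i v he hi hv hb

end Vale.Agent.P193.Core.Empty.Glue
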