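import Vale.Agent.P193.Full.Core.Empty.Glue.Assembly
import Vale.Agent.P193.Full.Core.Empty.Glue.UMoveEdge
import Vale.Agent.P193.Full.Core.Empty.Glue.Push
import Vale.Agent.P193.Full.Core.Empty.Glue.PushFacts

/-! The edge and push maps of valuations have all the axioms of virtual points, so the emptiness
part holds. -/

namespace Vale.Agent.P193.Core.Empty.Glue

open Calc Inst Classical

variable {d : Data} [DecidableEq d.M.A] {F : Calc.Frame (Point d)} {M : F.Model}

/-- The edge maps have the edge axioms. -/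
theorem edgeFields_vedge (E : Env M) (Φ : EdgeFacts M) : EdgeFields E (vedge E Φ) where
  spec := edgeSpec E Φ
  decomp u hu := edge_decomp E Φ u hu
  inj e e' v v' he he' hv hv' h := edge_inj E Φ e e' v v' he he' hv hv' h
  st _ _ he hv := edge_st E he hv
  tag _ _ he hv := edge_tag E he hv
  fr _ _ he hv := edge_fr E he hv
  gOne _ _ he hv := edge_gOne E he hv
  edge_h _ _ t he hv := edge_h E he hv t
  edge_g _ _ k he hv := edge_g E he hv k
  hOne _ _ he hv := edge_hOne E he hv
  cl_letter _ i _ he hk hv := edge_cl_letter E he hv i hk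
  cl_junk _ _ he hk hv := edge_cl_junk E he hv hk
  cl_other _ _ he hk hv := edge_cl_other E he hv hk
  k_letter _ i _ he hk hv := edge_k_letter E he hv i hk
  k_other _ _ he hk hv := edge_k_other E he hv hk

theorem cdom_vDom {E : Env M} (K : Ctor d) (v : Pt E) : CDom K v ↔ vDom E K v := by
  cases K <;> exact Iff.rfl

/-- A pushed atom read at a push, whatever the tag. -/
theorem push_read_any {E : Env M} (T : PushEnv E) {p : Inst.Push} {w : Pt E}
    (hw : CDom (pushCtor p 1) w) (A : Kappa d) (hA : Inst.Atom.Dom p A.1)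
    (hs : vst E w = A.1.st) (A' : Kappa d) (hA' : A'.1 = .push [] 1 1 p A.1) :
    (vpush T (pushCtor p 1) w).1 A' = w.1 A := by
  by_cases hb : A.1.tag = vtag E w
  · exact push_read T hw A hA hs.symm hb A' hA'
  · have h0 : w.1 A = false :=
      Bool.eq_false_iff.2 fun h => hb (vst_of_val E T.covers h).2.symm
    rw [h0, Bool.eq_false_iff]
    intro h
    obtain rfl : A' = pA p A hA := Subtype.ext hA'
    obtain ⟨v, h1, -, h3, h4, -⟩ := exists_pv T hA h
    rw [vpush_ctor T] at h4
    exact hb (by rw [← h3, (pv_inj T ((cdom_iff T p w).1 hw) h1 h4).2])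

/-- The push maps have the push axioms. -/
theorem pushFields_vpush {E : Env M} (T : PushEnv E) : PushFields E (vpush T) where
  val p A A' w hA hA' hs hd := push_read_any T ((cdom_vDom _ w).2 hd) A hA hs A' hA'
  cover p s b h u hu := by
    obtain ⟨hd, -⟩ := E.rig.le_dom (at1 (p.domB s b)).2 h
    obtain ⟨w, h1, h2, -, h4⟩ := push_cover T (p := p) (s := s) (b := b) hd hu
    exact ⟨w, (cdom_vDom _ w).1 h1, h2, h4⟩
  st := push_st T
  tag := push_tag T
  hOne := push_hOne T
  theta_r := theta_r T
  theta_emb := theta_emb T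
  theta_coset := theta_coset T
  theta_inj := theta_inj T
  omC_inj := omC_inj T
  omD_inj := omD_inj T
  omK_inj := omK_inj T
  tM_inj := tM_inj T
  omC_g := omC_g T
  omD_g := omD_g T
  omK_g := omK_g T
  tM_g := tM_g T
  theta_gOne := theta_gOne T
  theta_gOne_range := theta_gOne_range T
  omD_gOne := omD_gOne T
  omK_gOne := omK_gOne T
  theta_omD := theta_omD T
  theta_omK := theta_omK T
  omD_omK := omD_omK T
  omC_tM := omC_tM T
  finC := finC T

end Vale.Agent.P193.Core.Empty.Glue

namespace Vale.Agent.P193.Core.Inst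

open Calc

/-- Empty definable sets eventually have trivial fields. -/
theorem emptyPart (d : Data) [DecidableEq d.M.A] : EmptyPart d :=
  Empty.Glue.emptyPart_of
    (fun hG _ hF => (Empty.Glue.ev_edgeFacts hG hF).mono fun _ Φ E =>
      ⟨_, Empty.Glue.edgeFields_vedge E Φ⟩)
    fun hG _ hF => (Empty.Glue.ev_pushEnv hG hF).mono fun _ h E =>
      ⟨_, Empty.Glue.pushFields_vpush (h E)⟩

end Vale.Agent.P193.Core.Inst
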