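import Vale.Agent.P193.Full.Core.Empty.Glue.Defs
import Vale.Agent.P193.Full.Core.CovMoves.UMap
import Vale.Agent.P193.Full.Core.Facts.Rules

/-! The guessed-value maps on valuations: a valuation at the guess state with the tag without point
predicate reads an atom as the atom with moved inner translation; elsewhere nothing changes.
Theorem names: `ev_uFacts`, `vU`, `vU_*` (the `uM_*` axioms), `vU_rule1`. -/

namespace Vale.Agent.P193.Core.Empty.Glue

open Calc Inst Classical

set_option linter.unusedSectionVars false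

variable {d : Data} [DecidableEq d.M.A] {F : Calc.Frame (Point d)} {M : F.Model}

/-! ### The atom maps -/

/-- The inner translation of the preimage of an atom along a path. -/
def uShift (j : Fin 3) : List (OEdge d) → Inner d → Inner d
  | [], m => m
  | e :: π, m =>
    match e.1.kind with
    | .letter i => uShift j π m * (Facts.proj j (d.gen i))⁻¹
    | _ => m

/-- The inner translation of the image of an atom along a path. -/
def uBack (j : Fin 3) : List (OEdge d) → Inner d → Inner d
  | [], m => m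
  | e :: π, m =>
    match e.1.kind with
    | .letter i => uBack j π (m * Facts.proj j (d.gen i))
    | _ => m

theorem uShift_uBack (j : Fin 3) : ∀ (π : List (OEdge d)) (m : Inner d),
    uShift j π (uBack j π m) = m
  | [], _ => rfl
  | e :: π, m => by
    unfold uShift uBack
    cases e.1.kind <;> simp [uShift_uBack j π]

theorem uBack_uShift (j : Fin 3) : ∀ (π : List (OEdge d)) (m : Inner d),
    uBack j π (uShift j π m) = m
  | [], _ => rfl
  | e :: π, m => by
    unfold uShift uBack
    cases e.1.kind <;> simp [uBack_uShift j π]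

/-- Change the inner translation of an atom at the guess state and the tag without predicate. -/
noncomputable def mapM (φ : List (OEdge d) → Inner d → Inner d) : Atom d → Atom d
  | .base π k m B => .base π k (if top π B.s = .guess ∧ B.b = true then φ π m else m) B
  | .push π k m p A => .push π k (if top π .fin = .guess ∧ p.tag = true then φ π m else m) p A

/-- The same on the predicates. -/
noncomputable def mapK (φ : List (OEdge d) → Inner d → Inner d) (A : Kappa d) : Kappa d :=
  ⟨mapM φ A.1, by obtain ⟨A, hA⟩ := A; cases A <;> exact hA⟩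

theorem mapK_mapK {φ ψ : List (OEdge d) → Inner d → Inner d} (h : ∀ π m, φ π (ψ π m) = m)
    (A : Kappa d) : mapK φ (mapK ψ A) = A := by
  obtain ⟨A, hA⟩ := A
  apply Subtype.ext
  cases A with
  | base π k m B =>
    by_cases hc : top π B.s = .guess ∧ B.b = true <;> simp [mapK, mapM, hc, h]
  | push π k m p A =>
    by_cases hc : top π .fin = .guess ∧ p.tag = true <;> simp [mapK, mapM, hc, h]

theorem mapK_st (φ : List (OEdge d) → Inner d → Inner d) (A : Kappa d) :
    (mapK φ A).1.st = A.1.st ∧ (mapK φ A).1.tag = A.1.tag := by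
  obtain ⟨A, hA⟩ := A; cases A <;> exact ⟨rfl, rfl⟩

theorem mapK_outK (φ : List (OEdge d) → Inner d → Inner d) (A : Kappa d) (t : Outer d) :
    mapK φ (outK A t) = outK (mapK φ A) t := by
  obtain ⟨A, hA⟩ := A; cases A <;> rfl

theorem mapK_at1_out {φ : List (OEdge d) → Inner d → Inner d} (h : ∀ m, φ [] m = m) (B : Base d)
    (t : Outer d) : mapK φ (outK (at1 B) t) = outK (at1 B) t := by
  apply Subtype.ext
  show mapM φ (Atom.base [] (1 * t) 1 B) = Atom.base [] (1 * t) 1 B
  simp [mapM, h]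

theorem mapK_at1 {φ : List (OEdge d) → Inner d → Inner d} (h : ∀ m, φ [] m = m) (B : Base d) :
    mapK φ (at1 B) = at1 B := by
  have := mapK_at1_out h B 1
  rwa [outK_one] at this

/-- The preimage of a predicate. -/
noncomputable def uT (j : Fin 3) : Kappa d → Kappa d := mapK (uShift j)

/-- The image of a predicate. -/
noncomputable def uT' (j : Fin 3) : Kappa d → Kappa d := mapK (uBack j)

theorem uT_uT' (j : Fin 3) (A : Kappa d) : uT j (uT' j A) = A := mapK_mapK (uShift_uBack j) A

theorem uT'_uT (j : Fin 3) (A : Kappa d) : uT' j (uT j A) = A := mapK_mapK (uBack_uShift j) A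

/-- An atom behind one more edge. -/
def consK (e : OEdge d) (A : Kappa d) (h : A.1.st = e.1.tgt) : Kappa d :=
  match A, h with
  | ⟨.base π k m B, hA⟩, h => ⟨.base (e :: π) k m B, h.symm, hA⟩
  | ⟨.push π k m p A, hA⟩, h => ⟨.push (e :: π) k m p A, ⟨h.symm, hA.1⟩, hA.2⟩

theorem consK_congr (e : OEdge d) {A A' : Kappa d} (hA : A.1.st = e.1.tgt)
    (hA' : A'.1.st = e.1.tgt) (h : A = A') : consK e A hA = consK e A' hA' := by
  subst h; rfl

theorem uT_consK_letter (j : Fin 3) {e : OEdge d} {i : Fin d.n} (hi : e.1.kind = .letter i)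
    (hs : e.1.src = .guess) (ht : e.1.tgt = .guess) (A : Kappa d) (h : A.1.st = e.1.tgt)
    (hb : A.1.tag = true) (h' : (inK (uT j A) (Facts.proj j (d.gen i))⁻¹).1.st = e.1.tgt) :
    uT j (consK e A h) = consK e (inK (uT j A) (Facts.proj j (d.gen i))⁻¹) h' := by
  have e1 : ∀ π m, uShift j (e :: π) m = uShift j π m * (Facts.proj j (d.gen i))⁻¹ := fun π m => by
    rw [uShift, hi]
  have top' : ∀ π c, top (e :: π) c = .guess := fun _ _ => hs
  obtain ⟨A, hA⟩ := A
  apply Subtype.ext
  cases A with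
  | base π k m B =>
    have hc : top π B.s = .guess ∧ B.b = true := ⟨h.trans ht, hb⟩
    simp [uT, mapK, mapM, consK, inK, Atom.inShift, hc, top', e1]
  | push π k m p A =>
    have hc : top π .fin = .guess ∧ p.tag = true := ⟨h.trans ht, hb⟩
    simp [uT, mapK, mapM, consK, inK, Atom.inShift, hc, top', e1]

theorem uT_consK_other (j : Fin 3) {e : OEdge d} (hk : ∀ i, e.1.kind ≠ .letter i)
    (A : Kappa d) (h : A.1.st = e.1.tgt) : uT j (consK e A h) = consK e A h := by
  have e1 : ∀ π m, uShift j (e :: π) m = m := fun π m => by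
    rw [uShift]
    cases hk' : e.1.kind with
    | letter i => exact absurd hk' (hk i)
    | _ => rfl
  obtain ⟨A, hA⟩ := A
  apply Subtype.ext
  cases A <;> simp [uT, mapK, mapM, consK, e1]

/-! ### The facts -/

/-- The guess state at the tag without point predicate. -/
def gcellT : Tm d := cellT .guess true

/-- A positive certificate at the tag without point predicate. -/
def certT : Tm d :=
  .inter (.inter (.var (at1 ⟨.guess, true, .clean⟩)) (.var (at1 ⟨.guess, true, .hOne⟩)))
    (.var (outK (at1 ⟨.guess, true, .zOne⟩) (lT ((cval d true)⁻¹))))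

/-- The predicates that say what the front is. -/
noncomputable def frontT : Tm d :=
  have := Facts.finite_ltr (d := d)
  have := Fintype.ofFinite (Ltr d × Bool)
  tOr ((.var (at1 ⟨.guess, true, .zOne⟩) : Tm d) ::
    (Finset.univ : Finset (Ltr d × Bool)).toList.map fun s =>
      .var (at1 ⟨.guess, true, .zFront s⟩))

/-- What the guessed-value maps need of a model. -/
structure UFacts (M : F.Model) : Prop where
  covers : Covers M
  rules : ∀ j, URules M j
  front : ∀ (h : CtxOK M) (ν : U h), Holds h ν gcellT → Holds h ν frontT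
  certFld : ∀ h : CtxOK M, (ctx h).tfld certT = setFld M (tsetK certT)
  certGood : Frame.Good M (phi M) (setFld M (tsetK certT))
  fix : ∀ j f, Frame.Good M (phi M) f → Calc.Le f (setFld M (tsetK certT)) →
    cj (M.f (uWord F j)) f = f

theorem mem_certT {x : Point d} (hx : x ∈ tsetK (d := d) certT) :
    x.st = .guess ∧ x.tag = true ∧ x ∈ Facts.certS true := by
  obtain ⟨⟨hc, hh⟩, hz⟩ := hx
  obtain ⟨⟨hs, hb⟩, hc⟩ := Facts.mem_gimg_gT.1 (Facts.mem_gimg_hT.1 hc)
  obtain ⟨-, hh⟩ := Facts.mem_gimg_gT.1 (Facts.mem_gimg_hT.1 hh)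
  have hh' : x.h = 1 := by simpa [Pred.set, Facts.hOneS] using hh
  refine ⟨hs, hb, ⟨by simpa [Pred.set] using hc, hh'⟩, ?_⟩
  have hz' : x ∈ Facts.gimg (Facts.hT (lT ((cval d true)⁻¹))) (Facts.zOneS : Set (Point d)) := by
    refine Facts.mem_gimg_hT.2 ?_
    obtain ⟨-, hz⟩ := Facts.mem_gimg_gT.1 (Facts.mem_gimg_hT.1 hz)
    simpa [Pred.set] using hz
  rw [← Facts.zS_one, Facts.hT_img_zS] at hz'
  simpa [lT] using hz'

theorem ev_uFacts (hG : Core.Good d) (hF : IsCore F) : F.Ev (UFacts (F := F)) := by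
  have hfr : tsetK (gcellT (d := d)) ⊆ tsetK (frontT (d := d)) := by
    intro x hx
    obtain ⟨⟨hs, hb⟩, -⟩ := Facts.mem_gimg_gT.1 (Facts.mem_gimg_hT.1 (show x ∈
      Facts.gimg (Facts.hT 1) (Facts.gimg (Facts.gT 1) (stB .guess true).set) from hx))
    have hp : ∀ p : Pred d, x ∈ p.set → x ∈ tsetK (.var (at1 ⟨.guess, true, p⟩)) := fun p hp => by
      refine Facts.mem_gimg_hT.2 (Facts.mem_gimg_gT.2 ?_)
      obtain ⟨st, σ, b, w, g, k⟩ := x
      simpa [Base.set, stB] using And.intro (And.intro hs hb) hp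
    refine mem_tOr.2 ?_
    have hz := Set.eq_univ_iff_forall.1 Facts.zTree_cover x
    rcases hz with hz | hz
    · exact ⟨_, List.mem_cons_self, hp .zOne hz⟩
    · obtain ⟨s, hz⟩ := Set.mem_iUnion.1 hz
      exact ⟨_, List.mem_cons_of_mem _ (List.mem_map.2 ⟨s, by simp, rfl⟩), hp (.zFront s) hz⟩
  have hD := hasSet_tsetK hG hF (certT (d := d))
  have hfix : ∀ j, F.Ev fun M => ∀ f, Frame.Good M (phi M) f →
      Calc.Le f (setFld M (tsetK (certT (d := d)))) → cj (M.f (uWord F j)) f = f := fun j => by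
    obtain ⟨τ, hτ, eτ⟩ := exists_u_perm hG hF j
    refine (ev_agree_fld hτ Frame.isDiag_one hD fun s hs => ?_).mono fun M hM f hf hle => ?_
    · obtain ⟨h1, h2, h3⟩ := mem_certT hs
      rw [eτ s ⟨h1, h2⟩, (Facts.cert_guessVal hG h3).2 rfl, Facts.proj_one, mul_one]
      rfl
    · rw [hM f hf hle, map_one, cj_one]
  refine (((ev_covers hG hF).and (Frame.Ev.all fun j => ev_uRules hG hF j)).and
    (((ev_imp hG hF hfr).and (ev_tfld hG hF certT)).and
      ((ev_setFld hD).and (Frame.Ev.all hfix)))).mono ?_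
  exact fun M ⟨⟨h1, h2⟩, ⟨h3, h4⟩, h5, h6⟩ => ⟨h1, h2, h3, h4, h5.2.2.2, h6⟩

/-! ### The maps on valuations -/

variable (E : Env M) (u : UFacts M)
include u

theorem uWord_fix_cell (j : Fin 3) :
    cj (M.f (uWord F j)) (bfld M (stB .guess true)) = bfld M (stB .guess true) :=
  ((u.rules j).base (stB .guess true) rfl rfl).1

include E

/-- The word carries the preimage of an atom of the cell to the atom. -/
theorem fld_uT (j : Fin 3) {A : Kappa d} (hs : A.1.st = .guess) (hb : A.1.tag = true) :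
    cj (M.f (uWord F j)) (kfld M (uT j A)) = kfld M A := by
  have R := E.rig
  have L := E.laws
  have along : ∀ (c : State d) (T : List (OEdge d) → Inner d → Atom d),
      (∀ π m, Chain π c → (T π m).Ok) → (∀ π m, (T π m).st = top π c) →
      (∀ π m, (T π m).tag = true) →
      (∀ e π m, (T (e :: π) m).fld M = cj (edgeX M e) ((T π m).fld M)) →
      (∀ π m t, (T π m).inShift t = T π (m * t)) →
      (c = .guess → ∀ m, cj (M.f (uWord F j)) ((T [] m).fld M) = (T [] m).fld M) →
      ∀ π, Chain π c → top π c = .guess → ∀ m,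
        cj (M.f (uWord F j)) ((T π (uShift j π m)).fld M) = (T π m).fld M := by
    intro c T hok hst htag hcons hshift hnil π
    induction π with
    | nil => exact fun _ h m => hnil h m
    | cons e π ih =>
      intro hc hs m
      have hl : ∀ m, Calc.Le ((T π m).fld M) (setFld M (Facts.atS e.1.tgt ∩ tagIs true)) :=
        fun m => by
          have := R.le_st (hok π m hc.2)
          rwa [hst, htag, stB, bfld_full, ← hc.1] at this
      by_cases hk : ∃ i, e.1.kind = .letter i
      · obtain ⟨i, hi⟩ := hk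
        rw [hcons, hcons, uShift, hi]
        obtain ⟨e, he⟩ := e
        obtain rfl := Facts.edge_letter_eq he hi
        rw [(u.rules j).letter i _ (R.good _) (hl _), ← R.fld_inShift L (hok π _ hc.2), hshift]
        simp only [inv_mul_cancel_right]
        rw [ih hc.2 hc.1.symm m]
      · have hk' : ∀ i, e.1.kind ≠ .letter i := fun i h => hk ⟨i, h⟩
        have e1 : uShift j (e :: π) m = m := by
          rw [uShift]
          cases h' : e.1.kind with
          | letter i => exact absurd h' (hk' i)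
          | _ => rfl
        rw [e1, hcons, (u.rules j).other e hs hk' _ (R.good _) (hl m)]
  obtain ⟨A, hA⟩ := A
  cases A with
  | base π k m B =>
    show cj _ ((mapM (uShift j) (.base π k m B)).fld M) = (Atom.base π k m B).fld M
    rw [mapM, if_pos ⟨hs, hb⟩]
    exact along B.s (fun π m => .base π k m B) (fun _ _ h => h) (fun _ _ => rfl) (fun _ _ => hb)
      (fun e π m => fld_base_cons e π k m B) (fun _ _ _ => rfl)
      (fun hc m => by
        obtain ⟨h1, h2, h3, h4⟩ := (u.rules j).base B hc hb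
        rw [fld_base_nil, h2, (u.rules j).out k _ h3 h4, h1]) π hA hs m
  | push π k m p A =>
    show cj _ ((mapM (uShift j) (.push π k m p A)).fld M) = (Atom.push π k m p A).fld M
    rw [mapM, if_pos ⟨hs, hb⟩]
    exact along .fin (fun π m => .push π k m p A) (fun _ _ h => ⟨h, hA.2⟩) (fun _ _ => rfl)
      (fun _ _ => hb) (fun e π m => fld_push_cons e π k m p A) (fun _ _ _ => rfl)
      (fun hc _ => by cases hc) π hA.1 hs m

omit u

/-- Atoms that hold at a valuation of the cell lie in the cell. -/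
theorem holds_cell {ν : Pt E} {A : Kappa d} (hs : A.1.st = .guess) (hb : A.1.tag = true)
    (hA : ν.1 A = true) : Holds E.ctx ν gcellT := by
  have := at_of_val E.ctx E.rig hA
  rwa [hs, hb] at this

theorem cell_st {ν : Pt E} (hc : Holds E.ctx ν gcellT) {A : Kappa d} (hA : ν.1 A = true) :
    A.1.st = .guess ∧ A.1.tag = true :=
  at_unique E.ctx E.rig (at_of_val E.ctx E.rig hA) hc

/-- An element carrying the atoms of the cell as a map of predicates does, transports the cell. -/
theorem cell_hk {x : M.P} {φ : List (OEdge d) → Inner d → Inner d}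
    (hA : ∀ A : Kappa d, A.1.st = .guess → A.1.tag = true →
      cj x (kfld M A) = kfld M (mapK φ A)) (A : Kappa d) :
    cj x ((ctx E.ctx).tfld (.inter gcellT (.var A))) =
      (ctx E.ctx).tfld (.inter gcellT (.var (mapK φ A))) := by
  have hst := mapK_st φ A
  by_cases hc : A.1.st = .guess ∧ A.1.tag = true
  · have red : ∀ B : Kappa d, B.1.st = .guess → B.1.tag = true →
        (ctx E.ctx).tfld (.inter gcellT (.var B)) = kfld M B := fun B h1 h2 =>
      tfld_ext E.ctx (b := .var B) fun ν => ⟨fun h => h.2, fun h => ⟨holds_cell E h1 h2 h, h⟩⟩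
    rw [red A hc.1 hc.2, red _ (hst.1.trans hc.1) (hst.2.trans hc.2), hA A hc.1 hc.2]
  · have zero : ∀ B : Kappa d, ¬ (B.1.st = .guess ∧ B.1.tag = true) →
        (ctx E.ctx).tfld (.inter gcellT (.var B)) = 1 := fun B h =>
      (ctx E.ctx).tfld_eq_one_of_forall fun ν hν => h (cell_st E hν.1 hν.2)
    rw [zero A hc, zero _ (by rwa [hst.1, hst.2])]
    ext v; simp

theorem isVal_map {x : M.P} {φ : List (OEdge d) → Inner d → Inner d}
    (hC : cj x (bfld M (stB .guess true)) = bfld M (stB .guess true))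
    (hA : ∀ A : Kappa d, A.1.st = .guess → A.1.tag = true →
      cj x (kfld M A) = kfld M (mapK φ A)) {ν : Pt E} (hν : Holds E.ctx ν gcellT) :
    (ctx E.ctx).IsVal fun A => ν.1 (mapK φ A) := by
  obtain ⟨μ, -, hμ⟩ := (ctx E.ctx).val_move (D := gcellT) (R := gcellT)
    (k := fun A => .var (mapK φ A)) (c := (MulAut.conj x).toMonoidHom)
    (s := MonoidHom.id _) (s' := MonoidHom.id _)
    (fun v => DFunLike.congr_fun (show cj x (kfld M (at1 (stB .guess true))) =
      kfld M (at1 (stB .guess true)) by rw [fld_at1 E.rig, hC]) v)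
    (fun A v => DFunLike.congr_fun (cell_hk E hA A) v) (fun g _ e => MonoidHom.ext e) ν hν
  have e : μ.1 = fun A => ν.1 (mapK φ A) := funext fun A => by
    rw [Bool.eq_iff_iff]
    exact (hμ (.var A)).trans ⟨fun h => h.2, fun h => ⟨hν, h⟩⟩
  exact e ▸ μ.2

include u

theorem inv_fix_cell (j : Fin 3) :
    cj (M.f (uWord F j))⁻¹ (bfld M (stB .guess true)) = bfld M (stB .guess true) := by
  conv_lhs => rw [← uWord_fix_cell u j]
  exact cj_inv_cancel _ _

theorem inv_fld (j : Fin 3) (A : Kappa d) (hs : A.1.st = .guess) (hb : A.1.tag = true) :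
    cj (M.f (uWord F j))⁻¹ (kfld M A) = kfld M (uT j A) := by
  rw [← fld_uT E u j hs hb, cj_inv_cancel]

theorem fwd_fld (j : Fin 3) (A : Kappa d) (hs : A.1.st = .guess) (hb : A.1.tag = true) :
    cj (M.f (uWord F j)) (kfld M A) = kfld M (uT' j A) := by
  have hst := mapK_st (uBack j) A
  rw [← fld_uT E u j (A := uT' j A) (hst.1.trans hs) (hst.2.trans hb), uT_uT']

/-- The valuation seen after a guessed-value map. -/
noncomputable def uFwd (j : Fin 3) (ν : Pt E) : Pt E :=
  if hν : Holds E.ctx ν gcellT then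
    ⟨fun A => ν.1 (uT j A), isVal_map E (inv_fix_cell E u j) (inv_fld E u j) hν⟩
  else ν

/-- The valuation seen before a guessed-value map. -/
noncomputable def uBwd (j : Fin 3) (ν : Pt E) : Pt E :=
  if hν : Holds E.ctx ν gcellT then
    ⟨fun A => ν.1 (uT' j A), isVal_map E (uWord_fix_cell u j) (fwd_fld E u j) hν⟩
  else ν

theorem uFwd_val (j : Fin 3) {ν : Pt E} (hν : Holds E.ctx ν gcellT) (A : Kappa d) :
    (uFwd E u j ν).1 A = ν.1 (uT j A) := by rw [uFwd, dif_pos hν]

theorem uBwd_val (j : Fin 3) {ν : Pt E} (hν : Holds E.ctx ν gcellT) (A : Kappa d) :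
    (uBwd E u j ν).1 A = ν.1 (uT' j A) := by rw [uBwd, dif_pos hν]

/-- Predicates without path keep their value. -/
theorem uFwd_at1 (j : Fin 3) (ν : Pt E) (B : Base d) :
    (uFwd E u j ν).1 (at1 B) = ν.1 (at1 B) := by
  by_cases hν : Holds E.ctx ν gcellT
  · rw [uFwd_val E u j hν, uT, mapK_at1 fun _ => rfl]
  · rw [uFwd, dif_neg hν]

theorem uBwd_at1 (j : Fin 3) (ν : Pt E) (B : Base d) :
    (uBwd E u j ν).1 (at1 B) = ν.1 (at1 B) := by
  by_cases hν : Holds E.ctx ν gcellT
  · rw [uBwd_val E u j hν, uT', mapK_at1 fun _ => rfl]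
  · rw [uBwd, dif_neg hν]

/-- A guessed-value map as a permutation of the valuations. -/
noncomputable def vU (j : Fin 3) : Equiv.Perm (Pt E) where
  toFun := uFwd E u j
  invFun := uBwd E u j
  left_inv ν := by
    by_cases hν : Holds E.ctx ν gcellT
    · have hν' : Holds E.ctx (uFwd E u j ν) gcellT := (uFwd_at1 E u j ν _).trans hν
      exact Subtype.ext (funext fun A => by rw [uBwd_val E u j hν', uFwd_val E u j hν, uT_uT'])
    · rw [uFwd, dif_neg hν, uBwd, dif_neg hν]
  right_inv ν := by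
    by_cases hν : Holds E.ctx ν gcellT
    · have hν' : Holds E.ctx (uBwd E u j ν) gcellT := (uBwd_at1 E u j ν _).trans hν
      exact Subtype.ext (funext fun A => by rw [uFwd_val E u j hν', uBwd_val E u j hν, uT'_uT])
    · rw [uBwd, dif_neg hν, uFwd, dif_neg hν]

theorem vU_val (j : Fin 3) {ν : Pt E} (hν : Holds E.ctx ν gcellT) (A : Kappa d) :
    (vU E u j ν).1 A = ν.1 (uT j A) := uFwd_val E u j hν A

theorem vU_at1 (j : Fin 3) (ν : Pt E) (B : Base d) :
    (vU E u j ν).1 (at1 B) = ν.1 (at1 B) := uFwd_at1 E u j ν B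

theorem vU_P (j : Fin 3) (ν : Pt E) (p : Pred d) :
    P E.ctx (vU E u j ν) p ↔ P E.ctx ν p := by
  simp only [P, vU_at1 E u j ν]

theorem gcell_iff (ν : Pt E) :
    Holds E.ctx ν gcellT ↔ vst E ν = .guess ∧ vtag E ν = true :=
  ⟨fun h => vst_eq E u.covers h, fun h => by
    have := at_vst E u.covers ν
    rwa [h.1, h.2] at this⟩

/-- `uM_id`. -/
theorem vU_id (j : Fin 3) (ν : Pt E) (h : ¬ (vst E ν = .guess ∧ vtag E ν = true)) :
    vU E u j ν = ν :=
  show uFwd E u j ν = ν by rw [uFwd, dif_neg fun hν => h ((gcell_iff E u ν).1 hν)]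

theorem vU_at (j : Fin 3) (ν : Pt E) :
    vst E (vU E u j ν) = vst E ν ∧ vtag E (vU E u j ν) = vtag E ν :=
  vst_eq E u.covers ((vU_at1 E u j ν _).trans (at_vst E u.covers ν))

/-- `uM_st`. -/
theorem vU_st (j : Fin 3) (ν : Pt E) : vst E (vU E u j ν) = vst E ν := (vU_at E u j ν).1

/-- `uM_tag`. -/
theorem vU_tag (j : Fin 3) (ν : Pt E) : vtag E (vU E u j ν) = vtag E ν := (vU_at E u j ν).2

/-- `uM_cl`. -/
theorem vU_cl (j : Fin 3) (ν : Pt E) : vcl E (vU E u j ν) ↔ vcl E ν := vU_P E u j ν _

/-- `uM_hOne`. -/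
theorem vU_hOne (j : Fin 3) (ν : Pt E) : vhOne E (vU E u j ν) ↔ vhOne E ν := vU_P E u j ν _

/-- `uM_fr`. -/
theorem vU_fr (j : Fin 3) (ν : Pt E) : vfr E (vU E u j ν) = vfr E ν := by
  simp only [vfr, vU_P E u j ν]

/-- `uM_h`. -/
theorem vU_h (j : Fin 3) (t : Outer d) (ν : Pt E) :
    vH E t (vU E u j ν) = vU E u j (vH E t ν) := by
  by_cases hν : Holds E.ctx ν gcellT
  · have hν' : Holds E.ctx (vH E t ν) gcellT :=
      (out_val (B := stB .guess true) E.ctx E.rig E.laws trivial t ν).trans hν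
    refine Subtype.ext (funext fun A => ?_)
    rw [vU_val E u j hν', hAct_val, hAct_val, vU_val E u j hν, uT, mapK_outK]
  · have hν' : ¬ Holds E.ctx (vH E t ν) gcellT := fun h =>
      hν ((out_val (B := stB .guess true) E.ctx E.rig E.laws trivial t ν).symm.trans h)
    rw [vU_id E u j ν (fun h => hν ((gcell_iff E u ν).2 h)),
      vU_id E u j _ (fun h => hν' ((gcell_iff E u _).2 h))]

omit u

/-- What is used of the maps of edges on valuations. -/
structure EdgeSpec (ve : Edge d → Pt E → Pt E) : Prop where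
  val : ∀ (e : OEdge d) (v : Pt E) (A : Kappa d) (hA : A.1.st = e.1.tgt),
    vst E v = e.1.tgt → A.1.tag = vtag E v → (ve e.1 v).1 (consK e A hA) = v.1 A
  pop : ∀ (e : OEdge d) (b : Bool) (ν : Pt E),
    ν.1 (consK e (at1 (stB e.1.tgt b)) rfl) = true →
      ∃ w, vst E w = e.1.tgt ∧ vtag E w = b ∧ ve e.1 w = ν

variable {ve : Edge d → Pt E → Pt E} (S : EdgeSpec E ve)

/-- Two valuations at one state and tag that agree on the atoms there are equal. -/
theorem pt_ext (hc : Covers M) {v w : Pt E} (h1 : vst E v = vst E w) (h2 : vtag E v = vtag E w)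
    (h : ∀ A : Kappa d, A.1.st = vst E v → A.1.tag = vtag E v → v.1 A = w.1 A) : v = w := by
  refine Subtype.ext (funext fun A => ?_)
  rw [Bool.eq_iff_iff]
  constructor
  · intro hA
    obtain ⟨e1, e2⟩ := vst_of_val E hc hA
    rwa [← h A e1.symm e2.symm]
  · intro hA
    obtain ⟨e1, e2⟩ := vst_of_val E hc hA
    rwa [h A (h1.trans e1).symm (h2.trans e2).symm]

include u S

theorem edge_cell (e : OEdge d) (v : Pt E) (hv : vst E v = e.1.tgt) :
    vst E (ve e.1 v) = e.1.src ∧ vtag E (ve e.1 v) = vtag E v ∧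
      (ve e.1 v).1 (consK e (at1 (stB e.1.tgt (vtag E v))) rfl) = true := by
  have h : (ve e.1 v).1 (consK e (at1 (stB e.1.tgt (vtag E v))) rfl) = true := by
    rw [S.val e v (at1 (stB e.1.tgt (vtag E v))) rfl hv rfl, ← hv]
    exact at_vst E u.covers v
  exact ⟨(vst_of_val E u.covers h).1, (vst_of_val E u.covers h).2, h⟩

/-- `uM_other`. -/
theorem vU_other (j : Fin 3) (e : Edge d) (v : Pt E) (he : e.OK)
    (hk : ∀ i, e.kind ≠ .letter i) (hv : vst E v = e.tgt) :
    vU E u j (ve e v) = ve e v := by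
  let o : OEdge d := ⟨e, he⟩
  obtain ⟨h1, h2, hcyl⟩ := edge_cell E u S o v hv
  by_cases hcell : e.src = .guess ∧ vtag E v = true
  swap
  · exact vU_id E u j _ fun h => hcell ⟨h1.symm.trans h.1, h2.symm.trans h.2⟩
  have hν : Holds E.ctx (ve e v) gcellT :=
    (gcell_iff E u _).2 ⟨h1.trans hcell.1, h2.trans hcell.2⟩
  obtain ⟨w, w1, w2, w3⟩ := S.pop o (vtag E v) (vU E u j (ve e v)) (by
    rw [vU_val E u j hν, uT_consK_other j (e := o) hk _ rfl]; exact hcyl)
  rw [← w3]
  refine congrArg (ve e) (pt_ext E u.covers (w1.trans hv.symm) w2 fun A a1 a2 => ?_)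
  rw [← S.val o w A (a1.trans w1) w1 a2, w3, vU_val E u j hν, uT_consK_other j hk,
    S.val o v A (a1.trans w1) hv (a2.trans w2)]

/-- `uM_letter`. -/
theorem vU_letter (j : Fin 3) (e : Edge d) (i : Fin d.n) (v : Pt E) (he : e.OK)
    (hi : e.kind = .letter i) (hv : vst E v = e.tgt) (hb : vtag E v = true) :
    vU E u j (ve e v) = ve e (vU E u j (vG E (Facts.proj j (d.gen i))⁻¹ v)) := by
  obtain rfl := Facts.edge_letter_eq he hi
  let o : OEdge d := ⟨Facts.letterE i, he⟩
  let p : Inner d := (Facts.proj j (d.gen i))⁻¹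
  obtain ⟨h1, h2, -⟩ := edge_cell E u S o v hv
  have hν : Holds E.ctx (ve (Facts.letterE i) v) gcellT :=
    (gcell_iff E u _).2 ⟨h1, h2.trans hb⟩
  have hg : vst E (vG E p v) = .guess ∧ vtag E (vG E p v) = true := by
    obtain ⟨g1, g2⟩ := vst_in E u.covers p v
    exact ⟨g1.trans hv, g2.trans hb⟩
  have key : ∀ (A : Kappa d) (hA : A.1.st = .guess), A.1.tag = true →
      (vU E u j (ve (Facts.letterE i) v)).1 (consK o A hA) =
        (vU E u j (vG E p v)).1 A := fun A hA hAt => by
    have hst := mapK_st (uShift j) A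
    have hA' : (inK (uT j A) p).1.st = .guess ∧ (inK (uT j A) p).1.tag = true := by
      obtain ⟨B, hB⟩ := A
      cases B <;> exact ⟨hA, hAt⟩
    rw [vU_val E u j hν, uT_consK_letter j hi rfl rfl A hA hAt hA'.1,
      S.val o v _ hA'.1 hv (hA'.2.trans hb.symm), vU_val E u j ((gcell_iff E u _).2 hg), gAct_val]
  have hcyl : (vU E u j (ve (Facts.letterE i) v)).1
      (consK o (at1 (stB .guess true)) rfl) = true := by
    rw [key _ rfl rfl, vU_at1 E u j]
    exact (gcell_iff E u _).2 hg
  obtain ⟨w, w1, w2, w3⟩ := S.pop o true _ hcyl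
  rw [← w3]
  refine congrArg (ve (Facts.letterE i)) (pt_ext E u.covers ?_ ?_ fun A a1 a2 => ?_)
  · exact w1.trans ((vU_st E u j _).trans hg.1).symm
  · exact w2.trans ((vU_tag E u j _).trans hg.2).symm
  · rw [← key A (a1.trans w1) (a2.trans w2), ← w3]
    exact (S.val o w A (a1.trans w1) w1 a2).symm

omit S

/-- `rule1`. -/
theorem vU_rule1 (j : Fin 3) (ν : Pt E) (hc : vcl E ν) (hh : vhOne E ν) (hb : vtag E ν = true)
    (hf : vfr E (vH E (lT ((cval d true)⁻¹)) ν) = none) : vU E u j ν = ν := by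
  by_cases hν : Holds E.ctx ν gcellT
  swap
  · exact vU_id E u j ν fun h => hν ((gcell_iff E u ν).2 h)
  obtain ⟨hst, -⟩ := (gcell_iff E u ν).1 hν
  let t : Outer d := lT ((cval d true)⁻¹)
  have hμ : vst E (vH E t ν) = .guess ∧ vtag E (vH E t ν) = true := by
    obtain ⟨g1, g2⟩ := vst_out E u.covers t ν
    exact ⟨g1.trans hst, g2.trans hb⟩
  have hz : P E.ctx (vH E t ν) .zOne := by
    by_contra hz
    obtain ⟨a, ha, hv⟩ := (holds_tOr E.ctx _).1
      (u.front E.ctx (vH E t ν) ((gcell_iff E u _).2 hμ))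
    rcases List.mem_cons.1 ha with rfl | ha
    · exact hz ⟨_, _, hv⟩
    · obtain ⟨s, -, rfl⟩ := List.mem_map.1 ha
      have hex : ∃ s, P E.ctx (vH E t ν) (.zFront s) := ⟨s, _, _, hv⟩
      rw [vfr, if_neg hz, dif_pos hex] at hf
      exact Option.some_ne_none _ hf
  have hcert : Holds E.ctx ν certT := by
    refine ⟨⟨?_, ?_⟩, ?_⟩
    · have := (P_at E u.covers ν .clean).1 hc
      rwa [hst, hb] at this
    · have := (P_at E u.covers ν .hOne).1 hh
      rwa [hst, hb] at this
    · have := (P_at E u.covers (vH E t ν) .zOne).1 hz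
      rw [hμ.1, hμ.2, hAct_val] at this
      exact this
  refine Subtype.ext (funext fun A => ?_)
  rw [vU_val E u j hν, Bool.eq_iff_iff]
  obtain ⟨tm⟩ := (ctx E.ctx).compat ((ctx E.ctx).fld_x A) ((ctx E.ctx).fld_tfld certT)
  have hfix : cj (M.f (uWord F j)) ((ctx E.ctx).tfld (.inter (.var A) certT)) =
      (ctx E.ctx).tfld (.inter (.var A) certT) := by
    have hg : Frame.Good M (phi M) ((ctx E.ctx).tfld certT) := u.certFld E.ctx ▸ u.certGood
    show cj _ ((ctx E.ctx).meet (kfld M A) ((ctx E.ctx).tfld certT)) =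
      (ctx E.ctx).meet (kfld M A) ((ctx E.ctx).tfld certT)
    rw [(ctx E.ctx).meet_eq tm]
    exact u.fix j _ (Frame.Good.meet (E.rig.good _) hg tm)
      (u.certFld E.ctx ▸ Frame.atoms_le_right tm)
  have e1 : (ctx E.ctx).tfld (.inter gcellT (.inter (.var A) certT)) =
      (ctx E.ctx).tfld (.inter (.var A) certT) :=
    tfld_ext E.ctx fun μ => ⟨fun h => h.2, fun h => ⟨holds_cell E rfl rfl h.2.1.1, h⟩⟩
  have e2 : (ctx E.ctx).tfld ((ctx E.ctx).tsub gcellT (fun B => .var (uT j B))
      (.inter (.var A) certT)) = (ctx E.ctx).tfld (.inter (.var A) certT) := by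
    refine Eq.trans (b := cj (M.f (uWord F j))⁻¹
      ((ctx E.ctx).tfld (.inter gcellT (.inter (.var A) certT))))
      (MonoidHom.ext fun v => ((ctx E.ctx).transport_term (D := gcellT) (R := gcellT)
      (k := fun B => .var (uT j B)) (c := (MulAut.conj (M.f (uWord F j))⁻¹).toMonoidHom)
      (s := MonoidHom.id _) (s' := MonoidHom.id _)
      (fun w => DFunLike.congr_fun (show cj _ (kfld M (at1 (stB .guess true))) =
        kfld M (at1 (stB .guess true)) by rw [fld_at1 E.rig, inv_fix_cell E u j]) w)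
      (fun B w => DFunLike.congr_fun (cell_hk E (inv_fld E u j) B) w) (.inter (.var A) certT) v).symm) ?_
    show cj (M.f (uWord F j))⁻¹ ((ctx E.ctx).tfld (.inter gcellT (.inter (.var A) certT))) = _
    rw [e1]
    conv_lhs => rw [← hfix]
    exact cj_inv_cancel _ _
  have hk : ∀ (B : Base d) (s : Outer d), uT j (outK (at1 B) s) = outK (at1 B) s := fun B s =>
    mapK_at1_out (fun _ => rfl) B s
  have hk1 : ∀ B : Base d, uT j (at1 B) = at1 B := fun B => mapK_at1 (fun _ => rfl) B
  constructor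
  · intro hA
    refine ((holds_of_fld E.ctx e2 ν).1 ⟨⟨hν, hA⟩, ?_⟩).1
    exact ⟨⟨⟨hν, show ν.1 (uT j _) = true by rw [hk1]; exact hcert.1.1⟩,
      ⟨hν, show ν.1 (uT j _) = true by rw [hk1]; exact hcert.1.2⟩⟩,
      ⟨hν, show ν.1 (uT j _) = true by rw [hk]; exact hcert.2⟩⟩
  · intro hA
    exact ((holds_of_fld E.ctx e2 ν).2 ⟨hA, hcert⟩).1.2

end Vale.Agent.P193.Core.Empty.Glue
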