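import Vale.Agent.P193.Full.Core.Empty.Glue.BaseReads
import Vale.Agent.P193.Full.Core.Empty.Glue.UMove
import Vale.Agent.P193.Full.Core.Empty.PointSamples
import Vale.Agent.P193.Full.Core.Empty.AtomOb
import Vale.Agent.P193.Full.Core.Calculus
import Vale.Agent.P193.Full.Core.Inst.RigEv
import Vale.Agent.P193.Full.Core.Inst.Laws

/-! The emptiness part from the edge and push axioms at valuations: valuations are virtual points
at which atoms are their observations, observations at virtual points happen at points of the core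
model, so every finite pattern of a valuation has a point. -/

namespace Vale.Agent.P193.Core.Empty.Glue

open Calc Inst Classical

set_option linter.unusedSectionVars false

variable {d : Data} [DecidableEq d.M.A] {F : Calc.Frame (Point d)} {M : F.Model}

/-- The axioms of edges at valuations. -/
structure EdgeFields (E : Env M) (ve : Edge d → Pt E → Pt E) : Prop where
  spec : EdgeSpec E ve
  decomp : ∀ u, vst E u ≠ .fin →
    ∃ e : Edge d, e.OK ∧ e.src = vst E u ∧ ∃ v, vst E v = e.tgt ∧ ve e v = u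
  inj : ∀ e e' v v', e.OK → e'.OK → vst E v = e.tgt → vst E v' = e'.tgt →
    ve e v = ve e' v' → e = e' ∧ v = v'
  st : ∀ e v, e.OK → vst E v = e.tgt → vst E (ve e v) = e.src
  tag : ∀ e v, e.OK → vst E v = e.tgt → vtag E (ve e v) = vtag E v
  fr : ∀ e v, e.OK → vst E v = e.tgt → vfr E (ve e v) = vfr E v
  gOne : ∀ e v, e.OK → vst E v = e.tgt → (vgOne E (ve e v) ↔ vgOne E v)
  edge_h : ∀ e v t, e.OK → vst E v = e.tgt → vH E t (ve e v) = ve e (vH E t v)
  edge_g : ∀ e v k, e.OK → vst E v = e.tgt → vG E k (ve e v) = ve e (vG E k v)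
  hOne : ∀ e v, e.OK → vst E v = e.tgt → (vhOne E (ve e v) ↔ vhOne E (vH E (eT e)⁻¹ v))
  cl_letter : ∀ e i v, e.OK → e.kind = .letter i → vst E v = e.tgt →
    (vcl E (ve e v) ↔ vcl E v)
  cl_junk : ∀ e v, e.OK → e.kind = .junk → vst E v = e.tgt → ¬ vcl E (ve e v)
  cl_other : ∀ e v, e.OK → e.kind = .other → vst E v = e.tgt →
    (vcl E (ve e v) ↔ e.src = .guess)
  k_letter : ∀ e i v, e.OK → e.kind = .letter i → vst E v = e.tgt →
    (vkOne E (ve e v) ↔ vkOne E (vG E (d.gen i)⁻¹ v))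
  k_other : ∀ e v, e.OK → (∀ i, e.kind ≠ .letter i) → vst E v = e.tgt →
    (vkOne E (ve e v) ↔ e.src = .guess ∧ vgOne E v)

/-- The domain of a constructor at valuations. -/
def vDom (E : Env M) : Ctor d → Pt E → Prop
  | .theta _, _ => True
  | .omC, v => vtag E v = true
  | .omD, v => vtag E v = false
  | .omK, v => vtag E v = false ∧ vst E v = .guess
  | .tM, v => vtag E v = false ∧ vst E v = .fin ∧ vhOne E v

/-- The axioms of pushes at valuations. -/
structure PushFields (E : Env M) (vp : Ctor d → Pt E → Pt E) : Prop where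
  val : ∀ (p : Inst.Push) (A A' : Kappa d) (w : Pt E), Inst.Atom.Dom p A.1 →
    A'.1 = .push [] 1 1 p A.1 → vst E w = A.1.st → vDom E (ctor1 p) w →
    (vp (ctor1 p) w).1 A' = w.1 A
  cover : ∀ (p : Inst.Push) (s : State d) (b : Bool)
    (h : Inst.Atom.Dom p (at1 (p.domB s b)).1) (u : Pt E), u.1 (imK p s b h) = true →
    ∃ w, vDom E (ctor1 p) w ∧ vst E w = s ∧ vp (ctor1 p) w = u
  st : ∀ K v, vst E (vp K v) = .fin
  tag : ∀ K v, vtag E (vp K v) = K.tag
  hOne : ∀ K v, vhOne E (vp K v)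
  theta_r : ∀ r k v, vG E k (vp (.theta r) v) = vp (.theta (r * k⁻¹)) v
  theta_emb : ∀ r t v, vp (.theta r) (vH E t v) = vp (.theta ((toInner d t)⁻¹ * r)) v
  theta_coset : ∀ r r' v v', vp (.theta r) v = vp (.theta r') v' →
    r' * r⁻¹ ∈ (toInner d).range
  theta_inj : ∀ v v', vp (.theta 1) v = vp (.theta 1) v' → v = v'
  omC_inj : ∀ v v', vtag E v = true → vtag E v' = true → vp .omC v = vp .omC v' → v = v'
  omD_inj : ∀ v v', vtag E v = false → vtag E v' = false → vp .omD v = vp .omD v' → v = v'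
  omK_inj : ∀ v v', vtag E v = false → vst E v = .guess → vtag E v' = false →
    vst E v' = .guess → vp .omK v = vp .omK v' → v = v'
  tM_inj : ∀ v v', vtag E v = false → vst E v = .fin → vhOne E v → vtag E v' = false →
    vst E v' = .fin → vhOne E v' → vp .tM v = vp .tM v' → v = v'
  omC_g : ∀ k v, vtag E v = true → vG E k (vp .omC v) = vp .omC (vG E k v)
  omD_g : ∀ k v, vtag E v = false → vG E k (vp .omD v) = vp .omD (vG E k v)
  omK_g : ∀ k v, vtag E v = false → vst E v = .guess →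
    vG E k (vp .omK v) = vp .omK (vG E k v)
  tM_g : ∀ k v, vtag E v = false → vst E v = .fin → vhOne E v →
    vG E k (vp .tM v) = vp .tM (vG E k v)
  theta_gOne : ∀ v, vgOne E (vp (.theta 1) v) ↔ vhOne E v
  theta_gOne_range : ∀ r v, vgOne E (vp (.theta r) v) → r ∈ (toInner d).range
  omD_gOne : ∀ v, vtag E v = false → (vgOne E (vp .omD v) ↔ vgOne E v)
  omK_gOne : ∀ v, vtag E v = false → vst E v = .guess → (vgOne E (vp .omK v) ↔ vkOne E v)
  theta_omD : ∀ r v v', vtag E v' = false → vp (.theta r) v ≠ vp .omD v'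
  theta_omK : ∀ r v v', vtag E v' = false → vst E v' = .guess → vp (.theta r) v ≠ vp .omK v'
  omD_omK : ∀ v v', vtag E v = false → vtag E v' = false → vst E v' = .guess →
    vp .omD v ≠ vp .omK v'
  omC_tM : ∀ v v', vtag E v = true → vtag E v' = false → vst E v' = .fin → vhOne E v' →
    vp .omC v ≠ vp .tM v'
  finC : ∀ u, vst E u = .fin → vhOne E u → vtag E u = true →
    (∃ v, vtag E v = true ∧ u = vp .omC v) ∨
      ∃ v, vtag E v = false ∧ vst E v = .fin ∧ vhOne E v ∧ u = vp .tM v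

variable (hG : Core.Good d) (E : Env M) (B : BasicFacts M) (Uf : UFacts M)
  {ve : Edge d → Pt E → Pt E} {vp : Ctor d → Pt E → Pt E}
  (Ed : EdgeFields E ve) (Pu : PushFields E vp)

/-- The valuations as virtual points. -/
@[reducible] noncomputable def vSpace : VSpace d where
  U := Pt E
  st := vst E
  tag := vtag E
  cl := vcl E
  fr := vfr E
  hOne := vhOne E
  gOne := vgOne E
  kOne := vkOne E
  hA := vH E
  gA := vG E
  edge := ve
  uM := vU E Uf
  push := vp
  comm_gh := comm_gh E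
  st_h := st_h E B
  tag_h := tag_h E B
  cl_h := cl_h E B
  gOne_h := gOne_h E B
  kOne_h := kOne_h E B
  st_g := st_g E B
  tag_g := tag_g E B
  cl_g := cl_g E B
  fr_g := fr_g E B
  hOne_g := hOne_g E B
  fr_k := fr_k E B hG
  left_ne := left_ne E B
  left_eq := left_eq E B
  right_eq := right_eq E B
  conj_none := conj_none E B
  cl_guess := cl_guess E B
  gOne_tag := gOne_tag E B
  kOne_tag := kOne_tag E B
  gdisj := gdisj E B
  shape := shape E B
  live := live E B
  edge_decomp := Ed.decomp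
  edge_inj := Ed.inj
  edge_st := Ed.st
  edge_tag := Ed.tag
  edge_fr := Ed.fr
  edge_gOne := Ed.gOne
  edge_h := Ed.edge_h
  edge_g := Ed.edge_g
  edge_hOne := Ed.hOne
  edge_cl_letter := Ed.cl_letter
  edge_cl_junk := Ed.cl_junk
  edge_cl_other := Ed.cl_other
  edge_k_letter := Ed.k_letter
  edge_k_other := Ed.k_other
  uM_id := vU_id E Uf
  uM_st := vU_st E Uf
  uM_tag := vU_tag E Uf
  uM_cl := vU_cl E Uf
  uM_fr := vU_fr E Uf
  uM_hOne := vU_hOne E Uf
  uM_h := vU_h E Uf
  uM_letter := fun j e i v he hi hv hb => vU_letter E Uf Ed.spec j e i v he hi hv hb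
  uM_other := fun j e v he hk hv => vU_other E Uf Ed.spec j e v he hk hv
  push_st := Pu.st
  push_tag := Pu.tag
  push_hOne := Pu.hOne
  theta_r := Pu.theta_r
  theta_emb := Pu.theta_emb
  theta_coset := Pu.theta_coset
  theta_inj := Pu.theta_inj
  omC_inj := Pu.omC_inj
  omD_inj := Pu.omD_inj
  omK_inj := Pu.omK_inj
  tM_inj := Pu.tM_inj
  omC_g := Pu.omC_g
  omD_g := Pu.omD_g
  omK_g := Pu.omK_g
  tM_g := Pu.tM_g
  theta_gOne := Pu.theta_gOne
  theta_gOne_range := Pu.theta_gOne_range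
  omD_gOne := Pu.omD_gOne
  omK_gOne := Pu.omK_gOne
  theta_omD := Pu.theta_omD
  theta_omK := Pu.theta_omK
  omD_omK := Pu.omD_omK
  omC_tM := Pu.omC_tM
  finC := Pu.finC
  rule1 := vU_rule1 E Uf
  rule1' := rule1' E B
  rule2 := rule2 E B

theorem consK_consEdge (e : OEdge d) (A : Kappa d) (h : A.1.st = e.1.tgt) :
    (consK e A h).1 = A.1.consEdge e := by
  obtain ⟨A, hA⟩ := A
  cases A <;> rfl

/-- The value of an atom at a valuation. -/
def vval (ν : Pt E) (A : Inst.Atom d) : Prop := ∃ h : A.Ok, ν.1 ⟨A, h⟩ = true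

theorem vval_iff (ν : Pt E) {A : Inst.Atom d} (h : A.Ok) :
    vval E ν A ↔ ν.1 ⟨A, h⟩ = true :=
  ⟨fun ⟨_, h'⟩ => h', fun h' => ⟨h, h'⟩⟩

theorem vDom_dom (K : Ctor d) (w : Pt E) :
    (vSpace hG E B Uf Ed Pu).Dom K w ↔ vDom E K w := by
  cases K <;> exact Iff.rfl

/-- Valuations read every atom as its observation. -/
theorem vSpace_reads (G : GHFact M) :
    Reads (vSpace hG E B Uf Ed Pu) (vval E) where
  base u k m B₀ := by
    rw [vval_iff E u (show (Inst.Atom.base [] k m B₀).Ok from trivial)]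
    exact base_reads E B G (vSpace hG E B Uf Ed Pu) (Equiv.refl _) (fun _ => rfl) (fun _ => rfl)
      (fun _ => Iff.rfl) (fun _ => rfl) (fun _ => Iff.rfl) (fun _ => Iff.rfl) (fun _ => Iff.rfl)
      (fun _ _ => rfl) (fun _ _ => rfl) u k m B₀ _ rfl
  edge_val e A v hA hs hv := by
    rw [vval_iff E _ (consEdge_ok_of hA hs), vval_iff E v hA]
    by_cases ht : A.tag = vtag E v
    · rw [← Ed.spec.val e v ⟨A, hA⟩ hs hv ht,
        show consK e ⟨A, hA⟩ hs = ⟨A.consEdge e, consEdge_ok_of hA hs⟩ from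
          Subtype.ext (consK_consEdge e _ hs)]
    · refine iff_of_false (fun h => ?_) fun h => ht (vst_of_val E B.covers h).2.symm
      have h2 := (vst_of_val E B.covers h).2
      rw [show vtag E ((vSpace hG E B Uf Ed Pu).edge e.1 v) = vtag E v from Ed.tag _ _ e.2 hv,
        Inst.Atom.consEdge_tag] at h2
      exact ht h2.symm
  edge_onto e A u hA hs hu := by
    rw [vval_iff E u (consEdge_ok_of hA hs)] at hu
    have hc := val_cyl E hA hs u _ rfl hu
    have hck : cylK e A.tag = consK e (at1 (stB e.1.tgt A.tag)) rfl :=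
      Subtype.ext (Eq.symm (consK_consEdge e (at1 (stB e.1.tgt A.tag)) rfl))
    rw [hck] at hc
    obtain ⟨w, h1, -, h3⟩ := Ed.spec.pop e A.tag u hc
    exact ⟨w, h1, h3⟩
  shift u k m p A hA hd := by
    rw [vval_iff E u (show (Inst.Atom.push [] k m p A).Ok from ⟨trivial, hA, hd⟩),
      vval_iff E _ (show (Inst.Atom.push [] 1 1 p A).Ok from ⟨trivial, hA, hd⟩)]
    exact Eq.congr_left (val_push_shift E k m p A u _ _ rfl rfl)
  push_val p A w hA hd hs hw := by
    rw [vval_iff E _ (show (Inst.Atom.push [] 1 1 p A).Ok from ⟨trivial, hA, hd⟩),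
      vval_iff E w hA]
    exact Eq.congr_left (Pu.val p ⟨A, hA⟩ _ w hd rfl hs ((vDom_dom hG E B Uf Ed Pu _ w).1 hw))
  push_onto p A u hA hd hu := by
    rw [vval_iff E u (show (Inst.Atom.push [] 1 1 p A).Ok from ⟨trivial, hA, hd⟩)] at hu
    obtain ⟨h, him⟩ := val_im E hA hd u _ rfl hu
    obtain ⟨w, h1, h2, h3⟩ := Pu.cover p A.st A.tag (dom_domB h) u him
    exact ⟨w, (vDom_dom hG E B Uf Ed Pu _ w).2 h1, h2, h3⟩

include hG B Uf Ed Pu in
/-- Every finite pattern of a valuation has a point. -/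
theorem pattern_point (G : GHFact M) (ν : Pt E) (L : List (Kappa d)) :
    ∃ x : Point d, ∀ A ∈ L, (x ∈ kset A ↔ ν.1 A = true) := by
  let V := vSpace hG E B Uf Ed Pu
  obtain ⟨n, hn⟩ : ∃ n, ∀ O ∈ L.map (fun A => obAtom A.1), O.depth ≤ n := by
    refine ⟨((L.map fun A => obAtom A.1).map Ob.depth).sum, fun O hO => ?_⟩
    exact List.le_sum_of_mem (List.mem_map.2 ⟨O, hO, rfl⟩)
  obtain ⟨x, hx⟩ := realise_list hG (pointSamples hG) V n ν _ hn
  refine ⟨x, fun A hA => ?_⟩
  rw [← vval_iff E ν A.2, ← (vSpace_reads hG E B Uf Ed Pu G).holds_obAtom A.1 A.2 ν]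
  exact (holds_obAtom hG A.1 x).symm.trans (hx _ (List.mem_map.2 ⟨A, hA, rfl⟩)).symm

omit E B Uf Ed Pu

/-- The emptiness part, from the edge and push axioms holding eventually. -/
theorem emptyPart_of
    (hE : ∀ (hG : Core.Good d) (F : Calc.Frame (Point d)) (hF : IsCore F),
      F.Ev fun M => ∀ E : Env M, ∃ ve, EdgeFields E ve)
    (hP : ∀ (hG : Core.Good d) (F : Calc.Frame (Point d)) (hF : IsCore F),
      F.Ev fun M => ∀ E : Env M, ∃ vp, PushFields E vp) : EmptyPart d := by
  intro hG F hF hp hav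
  refine ((((ev_fields_good hG hF).and ((ev_groupLaws hG hF).and (ev_rig_of_laws hG hF))).and
    ((ev_basicFacts hG hF).and ((ev_uFacts hG hF).and (ev_ghFact hG hF)))).and
    ((hE hG F hF).and (hP hG F hF))).mono ?_
  rintro M ⟨⟨⟨hg, hL, hR⟩, B, Uf, G⟩, hEd, hPu⟩ Φ
  obtain ⟨eφ, efld, gφ, gfld⟩ := hg Φ
  have hctx : CtxOK M :=
    { le := fun A => by rw [← eφ, ← efld A]; exact (gfld A).le
      le_full := by rw [← eφ]; exact gφ.le
      pair := fun A C => by rw [← eφ, ← efld A, ← efld C]; exact Φ.pair A C }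
  let E : Env M := ⟨hctx, hR hL, hL⟩
  obtain ⟨ve, Ed⟩ := hEd E
  obtain ⟨vp, Pu⟩ := hPu E
  refine Ctx.emptyTrivial_of _ fun ν L => ?_
  have hone : (Φ.setup hp hav).ctx.one = (ctx hctx).one := eφ
  have hmeet : (Φ.setup hp hav).ctx.meet = (ctx hctx).meet := by
    funext h k
    simp only [Ctx.meet]
    rw [hone]
    rfl
  have hatom : ∀ l : List (Kappa d × Bool),
      (Φ.setup hp hav).ctx.atom l = (ctx hctx).atom l := by
    intro l
    induction l with
    | nil => exact hone
    | cons p l ih =>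
      obtain ⟨A, b⟩ := p
      have hx : (Φ.setup hp hav).ctx.x A = (ctx hctx).x A := efld A
      have hcompl : (Φ.setup hp hav).ctx.compl = (ctx hctx).compl := by
        funext h
        simp only [Ctx.compl]
        rw [hone]
        rfl
      show (Φ.setup hp hav).ctx.meet _ _ = (ctx hctx).meet _ _
      rw [hmeet, hcompl, hx, ih]
      rfl
  have hν : (ctx hctx).IsVal ν.1 := fun L h => ν.2 L ((hatom _).trans h)
  exact pattern_point hG E B Uf Ed Pu G ⟨ν.1, hν⟩ L

end Vale.Agent.P193.Core.Empty.Glue
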