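import Vale.Agent.P193.Full.Core.Inst.Unique
import Vale.Agent.P193.Full.Core.Inst.Meets
import Vale.Agent.P193.Full.Core.Inst.Alg
import Vale.Agent.P193.Full.Calc.Val
import Vale.Agent.P193.Full.Core.Empty.VSpace

/-! The algebra of core fields in a model, its valuations, and what makes them virtual points: the
two translations act on valuations, finitely many true facts hold at every valuation eventually,
and a diagonal element carrying fields gives a bijection between valuations. -/

namespace Vale.Agent.P193.Core.Empty.Glue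

open Calc Inst Classical

set_option linter.unusedSectionVars false

variable {d : Data} [DecidableEq d.M.A] {F : Calc.Frame (Point d)} {M : F.Model}

/-! ### The algebra -/

variable (M) in
/-- The chosen fields form an algebra. -/
structure CtxOK : Prop where
  le : ∀ A : Kappa d, Calc.Le (kfld M A) (phi M)
  le_full : Calc.Le (phi M) (phi M)
  pair : ∀ A B : Kappa d, Compat (phi M) (kfld M A) (kfld M B)

/-- The algebra of the chosen fields. -/
noncomputable abbrev ctx (h : CtxOK M) : Ctx (Vgrp (Point d)) M.P where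
  one := phi M
  ι := Kappa d
  x := kfld M
  S := Point d
  set := kset
  split := vgrp_centralSplit
  perfect := vgrp_perfect
  avoids := vgrp_avoids
  one_one := compat_full h.le_full
  x_one := fun A => compat_full (h.le A)
  pair := h.pair

/-- The valuations. -/
abbrev U (h : CtxOK M) := (ctx h).Val

/-- A term in the predicates. -/
abbrev Tm (d : Data) [DecidableEq d.M.A] := Ctx.Term (Kappa d)

variable (h : CtxOK M)

/-- The value of a term at a valuation. -/
abbrev Holds (ν : U h) (t : Tm d) : Prop := (ctx h).Holds ν.1 t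

/-- Two terms with one value everywhere have one field. -/
theorem tfld_ext {a b : Tm d} (e : ∀ ν : U h, Holds h ν a ↔ Holds h ν b) :
    (ctx h).tfld a = (ctx h).tfld b := by
  have d1 := (ctx h).tfld_eq_one_of_forall (t := .diff a b) fun ν hν => hν.2 ((e ν).1 hν.1)
  have d2 := (ctx h).tfld_eq_one_of_forall (t := .diff b a) fun ν hν => hν.2 ((e ν).2 hν.1)
  have ha := (ctx h).fld_tfld a
  have hb := (ctx h).fld_tfld b
  ext v
  rw [(ctx h).meet_split ha hb v,
    show (ctx h).meet ((ctx h).tfld a) ((ctx h).compl ((ctx h).tfld b)) = 1 from d1,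
    (ctx h).meet_split hb ha v,
    show (ctx h).meet ((ctx h).tfld b) ((ctx h).compl ((ctx h).tfld a)) = 1 from d2,
    (ctx h).meet_comm ha hb]

/-- Terms with one field have one value. -/
theorem holds_of_fld {a b : Tm d} (e : (ctx h).tfld a = (ctx h).tfld b) (ν : U h) :
    Holds h ν a ↔ Holds h ν b :=
  (ctx h).holds_congr ν e

/-- Predicates with one field have one value. -/
theorem val_congr {A B : Kappa d} (e : kfld M A = kfld M B) (ν : U h) : ν.1 A = ν.1 B := by
  rw [Bool.eq_iff_iff]
  exact holds_of_fld h (a := .var A) (b := .var B) e ν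

/-- Predicates with commuting fields never hold together. -/
theorem not_both {A B : Kappa d} (e : Calc.Disj (kfld M A) (kfld M B)) (ν : U h)
    (ha : ν.1 A = true) (hb : ν.1 B = true) : False := by
  obtain ⟨t⟩ := h.pair A B
  refine (ctx h).not_holds_of_eq_one ν (t := .inter (.var A) (.var B)) ?_ ⟨ha, hb⟩
  show (ctx h).meet (kfld M A) (kfld M B) = 1
  rw [(ctx h).meet_eq t]
  refine hom_ext_commutators vgrp_perfect fun v w => ?_
  rw [t.a_comm, MonoidHom.one_apply]
  exact commutatorElement_eq_one_iff_commute.2 (e v w)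

/-- A smaller predicate implies a larger one. -/
theorem val_le {A B : Kappa d} (e : Calc.Le (kfld M A) (kfld M B)) (ν : U h)
    (ha : ν.1 A = true) : ν.1 B = true := by
  obtain ⟨t⟩ := h.pair A B
  refine (ctx h).holds_of_meet_eq ν (a := .var A) (b := .var B) ?_ ha
  show (ctx h).meet (kfld M A) (kfld M B) = kfld M A
  rw [(ctx h).meet_eq t]
  exact hom_ext_commutators vgrp_perfect fun v w => by rw [t.a_comm, e.comm_eq]

/-! ### Finitely many facts -/

/-- The set of a term. -/
def tsetK : Tm d → Set (Point d)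
  | .full => Set.univ
  | .var A => kset A
  | .inter a b => tsetK a ∩ tsetK b
  | .diff a b => tsetK a \ tsetK b

variable (M) in
/-- A term that holds at no valuation. -/
def Never (t : Tm d) : Prop := ∀ (h : CtxOK M) (ν : U h), ¬ Holds h ν t

theorem hasSet_tsetK (hG : Core.Good d) (hF : IsCore F) :
    ∀ t : Tm d, HasSet F (tsetK t)
  | .full => hasSet_univ
  | .var A => fun v => by
      obtain ⟨y, rfl⟩ := Frame.vgen_surjective (F := F) v
      induction y using FreeGroup.induction_on with
      | C1 => exact ⟨1, by simp⟩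
      | of j => exact ⟨(coreSys hG hF).word A j, by
          rw [FreeGroup.lift_apply_of]; exact eval_atomWord hG hF A.1 A.2 j⟩
      | inv_of j hj =>
        obtain ⟨x, hx⟩ := hj
        exact ⟨x⁻¹, by rw [map_inv, hx, map_inv, map_inv]⟩
      | mul a b ha hb =>
        obtain ⟨x, hx⟩ := ha
        obtain ⟨z, hz⟩ := hb
        exact ⟨x * z, by rw [map_mul, hx, hz, map_mul, map_mul]⟩
  | .inter a b => (hasSet_tsetK hG hF a).inter (hasSet_tsetK hG hF b)
  | .diff a b => (hasSet_tsetK hG hF a).diff (hasSet_tsetK hG hF b)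

/-- The field of a given term is eventually the field of its set. -/
theorem ev_tfld (hG : Core.Good d) (hF : IsCore F) : ∀ t : Tm d,
    F.Ev fun M => ∀ h : CtxOK M, (ctx h).tfld t = setFld M (tsetK t)
  | .full => ev_univ.mono fun _ e _ => e.symm
  | .var A => by
      refine ((ev_kfld hG hF).and (ev_setFld_eq (e := kset A) (hasSet_tsetK hG hF (.var A))
        ((coreSys hG hF).word A) fun j => eval_atomWord hG hF A.1 A.2 j)).mono ?_
      exact fun M ⟨⟨_, _, hk⟩, hs⟩ _ =>
        Frame.hom_ext (F := F) fun j => ((hk A).1 j).trans (hs j).symm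
  | .inter a b => by
      have ha := hasSet_tsetK hG hF a
      have hb := hasSet_tsetK hG hF b
      refine (((ev_tfld hG hF a).and (ev_tfld hG hF b)).and (((ev_setFld (ha.inter hb)).and
        (ev_setFld (ha.diff hb))).and ((ev_setFld hb).and ((ev_split ha hb).and
        (ev_disj_fld (ha.inter hb) (ha.diff hb) Set.disjoint_sdiff_inter.symm))))).mono ?_
      rintro M ⟨⟨ea, eb⟩, ⟨g1, g2⟩, gE, ⟨hsp, hd, hle⟩, hd12⟩ h
      show (ctx h).meet ((ctx h).tfld a) ((ctx h).tfld b) = setFld M (tsetK a ∩ tsetK b)
      rw [ea h, eb h]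
      obtain ⟨t, ht⟩ := atoms_of_split g1.2.2.2 g2.2.2.2 gE.2.2.2 hd12 hsp hd hle
      rw [(ctx h).meet_eq t, ht]
  | .diff a b => by
      have ha := hasSet_tsetK hG hF a
      have hb := hasSet_tsetK hG hF b
      refine ((((ev_tfld hG hF a).and (ev_tfld hG hF b)).and (((ev_setFld (ha.diff hb)).and
        (ev_setFld (ha.inter hb))).and ((ev_setFld hb.compl).and ((ev_split ha hb.compl).and
        (ev_disj_fld (ha.diff hb) (ha.inter hb) Set.disjoint_sdiff_inter))))).and
        ((ev_join hb hb.compl disjoint_compl_right).and ev_univ)).mono ?_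
      rintro M ⟨⟨⟨ea, eb⟩, ⟨g1, g2⟩, gE, ⟨hsp, hd, hle⟩, hd12⟩, hj, hu⟩ h
      rw [← Set.sdiff_eq] at hsp hle
      rw [Set.diff_compl] at hsp hd
      have hcompl : (ctx h).compl ((ctx h).tfld b) = setFld M (tsetK b)ᶜ := by
        ext v
        have e1 := (ctx h).meet_split (ctx h).fld_one ((ctx h).fld_tfld b) v
        rw [(ctx h).meet_comm (ctx h).fld_one ((ctx h).fld_tfld b),
          (ctx h).meet_one ((ctx h).fld_tfld b),
          (ctx h).meet_comm (ctx h).fld_one ((ctx h).fld_compl ((ctx h).fld_tfld b)),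
          (ctx h).meet_one ((ctx h).fld_compl ((ctx h).fld_tfld b))] at e1
        have e2 := hj v
        rw [Set.union_compl_self, hu, ← eb h] at e2
        exact mul_left_cancel (e1.symm.trans e2)
      show (ctx h).meet ((ctx h).tfld a) ((ctx h).compl ((ctx h).tfld b)) =
        setFld M (tsetK a \ tsetK b)
      rw [ea h, hcompl]
      obtain ⟨t, ht⟩ := atoms_of_split g1.2.2.2 g2.2.2.2 gE.2.2.2 hd12 hsp hd hle
      rw [(ctx h).meet_eq t, ht]

/-- A term with empty set eventually holds at no valuation. -/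
theorem ev_never (hG : Core.Good d) (hF : IsCore F) (t : Tm d) (ht : tsetK t = ∅) :
    F.Ev fun M => Never M t :=
  ((ev_tfld hG hF t).and ev_empty).mono fun M ⟨e, e0⟩ h ν =>
    (ctx h).not_holds_of_eq_one ν (by rw [e h, ht, e0])

/-- A true equality between two given terms eventually holds at every valuation. -/
theorem ev_iff (hG : Core.Good d) (hF : IsCore F) {a b : Tm d} (hab : tsetK a = tsetK b) :
    F.Ev fun M => ∀ (h : CtxOK M) (ν : U h), Holds h ν a ↔ Holds h ν b :=
  ((ev_tfld hG hF a).and (ev_tfld hG hF b)).mono fun M ⟨ea, eb⟩ h ν =>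
    holds_of_fld h (by rw [ea h, eb h, hab]) ν

/-- A true implication between two given terms eventually holds at every valuation. -/
theorem ev_imp (hG : Core.Good d) (hF : IsCore F) {a b : Tm d} (hab : tsetK a ⊆ tsetK b) :
    F.Ev fun M => ∀ (h : CtxOK M) (ν : U h), Holds h ν a → Holds h ν b :=
  (ev_never hG hF (.diff a b) (Set.sdiff_eq_empty.2 hab)).mono fun _ hn h ν ha =>
    Classical.byContradiction fun hb => hn h ν ⟨ha, hb⟩

/-- The disjunction of a list of terms. -/
def tOr : List (Tm d) → Tm d
  | [] => .diff .full .full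
  | t :: l => .diff .full (.inter (.diff .full t) (.diff .full (tOr l)))

theorem mem_tOr {l : List (Tm d)} {x : Point d} :
    x ∈ tsetK (tOr l) ↔ ∃ t ∈ l, x ∈ tsetK t := by
  induction l with
  | nil => simp [tOr, tsetK]
  | cons t l ih => simp [tOr, tsetK, ← ih]; tauto

theorem holds_tOr {l : List (Tm d)} (ν : U h) :
    Holds h ν (tOr l) ↔ ∃ t ∈ l, Holds h ν t := by
  induction l with
  | nil => simp [tOr, Holds, Ctx.Holds]
  | cons t l ih =>
    simp only [Holds] at ih
    simp [tOr, Holds, Ctx.Holds, ← ih]; tauto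

/-! ### The basic predicates -/

/-- A base predicate without translations. -/
def at1 (B : Base d) : Kappa d := ⟨.base [] 1 1 B, trivial⟩

/-- An elementary predicate at some state and tag. -/
def P (ν : U h) (p : Pred d) : Prop := ∃ s b, ν.1 (at1 ⟨s, b, p⟩) = true

/-- The valuation lies at a state and tag. -/
def At (ν : U h) (s : State d) (b : Bool) : Prop := ν.1 (at1 (stB s b)) = true

variable (R : Rig M) (L : GroupLaws M)

include R

theorem fld_at1 (B : Base d) : kfld M (at1 B) = bfld M B := by
  show (Atom.base [] 1 1 B).fld M = _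
  rw [fld_base_nil, R.out_one, R.in_one, cj_one, cj_one]

/-- A predicate holds only at its state and tag. -/
theorem at_of_val {A : Kappa d} {ν : U h} (hA : ν.1 A = true) : At h ν A.1.st A.1.tag :=
  val_le h (by rw [fld_at1 R]; exact R.le_st A.2) ν hA

/-- A valuation lies at one state and tag at most. -/
theorem at_unique {ν : U h} {s s' : State d} {b b' : Bool} (h1 : At h ν s b)
    (h2 : At h ν s' b') : s = s' ∧ b = b' := by
  by_contra hne
  refine not_both h ?_ ν h1 h2
  rw [fld_at1 R, fld_at1 R]
  exact R.st_disj s s' b b' (Classical.not_and_iff_not_or_not.1 hne)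

theorem P_iff {ν : U h} {s : State d} {b : Bool} (hν : At h ν s b) (p : Pred d) :
    P h ν p ↔ ν.1 (at1 ⟨s, b, p⟩) = true := by
  refine ⟨fun ⟨s', b', h'⟩ => ?_, fun h' => ⟨s, b, h'⟩⟩
  obtain ⟨rfl, rfl⟩ := at_unique h R hν (at_of_val h R h')
  exact h'

omit R

/-! ### Translations -/

/-- Move an atom by an outer translation. -/
def outK (A : Kappa d) (t : Outer d) : Kappa d := ⟨A.1.outShift t, Atom.outShift_ok A.2 t⟩

/-- Move an atom by an inner translation. -/
def inK (A : Kappa d) (t : Inner d) : Kappa d := ⟨A.1.inShift t, Atom.inShift_ok A.2 t⟩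

theorem outK_outK (A : Kappa d) (s t : Outer d) : outK (outK A s) t = outK A (s * t) := by
  obtain ⟨A, hA⟩ := A
  cases A <;> simp [outK, Atom.outShift, mul_assoc]

theorem outK_one (A : Kappa d) : outK A 1 = A := by
  obtain ⟨A, hA⟩ := A
  cases A <;> simp [outK, Atom.outShift]

theorem inK_inK (A : Kappa d) (s t : Inner d) : inK (inK A s) t = inK A (s * t) := by
  obtain ⟨A, hA⟩ := A
  cases A <;> simp [inK, Atom.inShift, mul_assoc]

theorem inK_one (A : Kappa d) : inK A 1 = A := by
  obtain ⟨A, hA⟩ := A
  cases A <;> simp [inK, Atom.inShift]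

theorem outK_inK (A : Kappa d) (s : Inner d) (t : Outer d) :
    outK (inK A s) t = inK (outK A t) s := by
  obtain ⟨A, hA⟩ := A
  cases A <;> simp [inK, outK, Atom.inShift, Atom.outShift]

theorem isVal_shift (x : M.P) (hx : x ∈ Frame.moveSub M (phi M)) (f : Kappa d → Kappa d)
    (hf : ∀ A, cj x (kfld M A) = kfld M (f A)) (ν : U h) :
    (ctx h).IsVal fun A => ν.1 (f A) := by
  obtain ⟨μ, -, hμ⟩ := (ctx h).val_move (D := .full) (R := .full) (k := fun A => .var (f A))
    (c := (MulAut.conj x).toMonoidHom) (s := MonoidHom.id _) (s' := MonoidHom.id _)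
    (fun v => DFunLike.congr_fun (cj_of_commute hx.1) v)
    (fun A v => by
      show x * (ctx h).meet (phi M) (kfld M A) v * x⁻¹ = (ctx h).meet (phi M) (kfld M (f A)) v
      rw [(ctx h).meet_comm (ctx h).fld_one ((ctx h).fld_x A),
        (ctx h).meet_one ((ctx h).fld_x A),
        (ctx h).meet_comm (ctx h).fld_one ((ctx h).fld_x (f A)),
        (ctx h).meet_one ((ctx h).fld_x (f A))]
      exact DFunLike.congr_fun (hf A) v)
    (fun g _ e => MonoidHom.ext e) ν trivial
  convert μ.2 using 1
  funext A
  rw [Bool.eq_iff_iff]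
  exact ((hμ (.var A)).trans ⟨fun h => h.2, fun h => ⟨trivial, h⟩⟩).symm

include R L

/-- The valuation seen after an outer translation. -/
noncomputable def hMove (t : Outer d) (ν : U h) : U h :=
  ⟨fun A => ν.1 (outK A t), isVal_shift h (outX M t) (R.out_mem t) (fun A => outK A t)
    (fun A => (R.fld_outShift L A.2 t).symm) ν⟩

/-- The valuation seen after an inner translation. -/
noncomputable def gMove (t : Inner d) (ν : U h) : U h :=
  ⟨fun A => ν.1 (inK A t), isVal_shift h (inX M t) (R.in_mem t) (fun A => inK A t)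
    (fun A => (R.fld_inShift L A.2 t).symm) ν⟩

/-- The action of the outer group on valuations. -/
noncomputable def hAct : Outer d →* Equiv.Perm (U h) where
  toFun t :=
    { toFun := hMove h R L t
      invFun := hMove h R L t⁻¹
      left_inv := fun ν => Subtype.ext (funext fun A => by simp [hMove, outK_outK, outK_one])
      right_inv := fun ν => Subtype.ext (funext fun A => by simp [hMove, outK_outK, outK_one]) }
  map_one' := Equiv.ext fun ν => Subtype.ext (funext fun A => by simp [hMove, outK_one])
  map_mul' s t := Equiv.ext fun ν => Subtype.ext (funext fun A => by simp [hMove, outK_outK])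

/-- The action of the inner group on valuations. -/
noncomputable def gAct : Inner d →* Equiv.Perm (U h) where
  toFun t :=
    { toFun := gMove h R L t
      invFun := gMove h R L t⁻¹
      left_inv := fun ν => Subtype.ext (funext fun A => by simp [gMove, inK_inK, inK_one])
      right_inv := fun ν => Subtype.ext (funext fun A => by simp [gMove, inK_inK, inK_one]) }
  map_one' := Equiv.ext fun ν => Subtype.ext (funext fun A => by simp [gMove, inK_one])
  map_mul' s t := Equiv.ext fun ν => Subtype.ext (funext fun A => by simp [gMove, inK_inK])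

theorem hAct_val (t : Outer d) (ν : U h) (A : Kappa d) :
    (hAct h R L t ν).1 A = ν.1 (outK A t) := rfl

theorem gAct_val (t : Inner d) (ν : U h) (A : Kappa d) :
    (gAct h R L t ν).1 A = ν.1 (inK A t) := rfl

theorem act_comm (t : Outer d) (k : Inner d) (ν : U h) :
    gAct h R L k (hAct h R L t ν) = hAct h R L t (gAct h R L k ν) :=
  Subtype.ext (funext fun A => by rw [gAct_val, hAct_val, hAct_val, gAct_val, outK_inK])

/-- Predicates blind to the outer coordinate are invariant. -/
theorem out_val {B : Base d} (hB : B.p.OutFix) (t : Outer d) (ν : U h) :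
    (hAct h R L t ν).1 (at1 B) = ν.1 (at1 B) := by
  rw [hAct_val]
  refine val_congr h ?_ ν
  rw [show kfld M (outK (at1 B) t) = cj (outX M t) (kfld M (at1 B)) from
    R.fld_outShift L (at1 B).2 t, fld_at1 R, R.out_fix B t hB]

/-- Predicates blind to the inner coordinate are invariant. -/
theorem in_val {B : Base d} (hB : B.p.InFix) (t : Inner d) (ν : U h) :
    (gAct h R L t ν).1 (at1 B) = ν.1 (at1 B) := by
  rw [gAct_val]
  refine val_congr h ?_ ν
  rw [show kfld M (inK (at1 B) t) = cj (inX M t) (kfld M (at1 B)) from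
    R.fld_inShift L (at1 B).2 t, fld_at1 R, R.in_fix B t hB]

omit R L

/-! ### Bijections carried by an element -/

/-- An element carrying the fields under `D` to fields under `E`, with every predicate under `E`
in the image. -/
structure Move where
  x : M.P
  D : Tm d
  E : Tm d
  k : Kappa d → Tm d
  hD : cj x ((ctx h).tfld D) = (ctx h).tfld E
  hk : ∀ A, cj x ((ctx h).tfld (.inter D (.var A))) = (ctx h).tfld (.inter E (k A))
  span : ∀ A, ∃ t : Tm d, ∀ ν : U h, Holds h ν E →
    (ν.1 A = true ↔ Holds h ν ((ctx h).tsub E k t))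

namespace Move

variable {h} (m : Move h)

theorem pop_spec (ν : U h) (hν : Holds h ν m.E) :
    ∃ μ : U h, Holds h μ m.D ∧ ∀ t, (Holds h μ t ↔ Holds h ν ((ctx h).tsub m.E m.k t)) :=
  (ctx h).val_move (D := m.D) (R := m.E) (k := m.k) (c := (MulAut.conj m.x).toMonoidHom)
    (s := MonoidHom.id _) (s' := MonoidHom.id _) (fun v => DFunLike.congr_fun m.hD v)
    (fun A v => DFunLike.congr_fun (m.hk A) v) (fun g _ e => MonoidHom.ext e) ν hν

/-- The valuation under `D` of a valuation under `E`. -/
noncomputable def pop (ν : U h) : U h :=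
  if hν : Holds h ν m.E then (m.pop_spec ν hν).choose else ν

theorem pop_mem {ν : U h} (hν : Holds h ν m.E) : Holds h (m.pop ν) m.D := by
  rw [pop, dif_pos hν]; exact (m.pop_spec ν hν).choose_spec.1

theorem pop_val {ν : U h} (hν : Holds h ν m.E) (A : Kappa d) :
    (m.pop ν).1 A = true ↔ Holds h ν (m.k A) := by
  rw [pop, dif_pos hν]
  exact ((m.pop_spec ν hν).choose_spec.2 (.var A)).trans ⟨fun h' => h'.2, fun h' => ⟨hν, h'⟩⟩

theorem pop_holds {ν : U h} (hν : Holds h ν m.E) (t : Tm d) :
    Holds h (m.pop ν) t ↔ Holds h ν ((ctx h).tsub m.E m.k t) := by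
  rw [pop, dif_pos hν]
  exact (m.pop_spec ν hν).choose_spec.2 t

theorem pop_inj {ν ν' : U h} (hν : Holds h ν m.E) (hν' : Holds h ν' m.E)
    (e : m.pop ν = m.pop ν') : ν = ν' :=
  Subtype.ext (funext fun A => by
    obtain ⟨t, ht⟩ := m.span A
    rw [Bool.eq_iff_iff, ht ν hν, ht ν' hν', ← m.pop_holds hν, ← m.pop_holds hν', e])

theorem pop_surj (μ : U h) (hμ : Holds h μ m.D) :
    ∃ ν : U h, Holds h ν m.E ∧ m.pop ν = μ := by
  choose t ht using m.span
  have key : ∀ s : Tm d, cj m.x ((ctx h).tfld (.inter m.D s)) =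
      (ctx h).tfld ((ctx h).tsub m.E m.k s) := fun s => MonoidHom.ext fun v =>
    (ctx h).transport_term (D := m.D) (R := m.E) (k := m.k)
      (c := (MulAut.conj m.x).toMonoidHom) (s := MonoidHom.id _) (s' := MonoidHom.id _)
      (fun w => DFunLike.congr_fun m.hD w) (fun A w => DFunLike.congr_fun (m.hk A) w) s v
  have hback : ∀ A, cj m.x⁻¹ ((ctx h).tfld (.inter m.E (.var A))) =
      (ctx h).tfld (.inter m.D (t A)) := fun A => by
    rw [show (ctx h).tfld (.inter m.E (.var A)) = (ctx h).tfld ((ctx h).tsub m.E m.k (t A)) from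
      tfld_ext h fun ν => ⟨fun ⟨h1, h2⟩ => (ht A ν h1).1 h2, fun h2 => ?_⟩, ← key, cj_inv_cancel]
    have h1 : Holds h ν m.E := by
      clear hμ
      revert h2
      induction t A with
      | full => exact id
      | var B => exact And.left
      | inter a b ha _ => exact fun h2 => ha h2.1
      | diff a b ha _ => exact fun h2 => ha h2.1
    exact ⟨h1, (ht A ν h1).2 h2⟩
  obtain ⟨ν, hν, hν'⟩ := (ctx h).val_move (D := m.E) (R := m.D) (k := t)
    (c := (MulAut.conj m.x⁻¹).toMonoidHom) (s := MonoidHom.id _) (s' := MonoidHom.id _)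
    (fun v => DFunLike.congr_fun (show cj m.x⁻¹ ((ctx h).tfld m.E) = (ctx h).tfld m.D by
      rw [← m.hD, cj_inv_cancel]) v)
    (fun A v => DFunLike.congr_fun (hback A) v) (fun g _ e => MonoidHom.ext e) μ hμ
  refine ⟨ν, hν, Subtype.ext (funext fun A => ?_)⟩
  rw [Bool.eq_iff_iff, m.pop_val hν]
  refine (hν' (m.k A)).trans ?_
  rw [← (ctx h).holds_congr μ (a := .inter m.D (.var A)) (b := (ctx h).tsub m.D t (m.k A))]
  · exact ⟨fun h' => h'.2, fun h' => ⟨hμ, h'⟩⟩
  · have e2 : ∀ s : Tm d, cj m.x⁻¹ ((ctx h).tfld (.inter m.E s)) =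
        (ctx h).tfld ((ctx h).tsub m.D t s) := fun s => MonoidHom.ext fun v =>
      (ctx h).transport_term (D := m.E) (R := m.D) (k := t)
        (c := (MulAut.conj m.x⁻¹).toMonoidHom) (s := MonoidHom.id _) (s' := MonoidHom.id _)
        (fun w => DFunLike.congr_fun (show cj m.x⁻¹ ((ctx h).tfld m.E) = (ctx h).tfld m.D by
          rw [← m.hD, cj_inv_cancel]) w)
        (fun B w => DFunLike.congr_fun (hback B) w) s v
    rw [← e2, ← m.hk, cj_inv_cancel]

/-- The valuation under `E` of a valuation under `D`. -/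
noncomputable def push (μ : U h) : U h :=
  if hμ : Holds h μ m.D then (m.pop_surj μ hμ).choose else μ

theorem push_mem {μ : U h} (hμ : Holds h μ m.D) : Holds h (m.push μ) m.E := by
  rw [push, dif_pos hμ]; exact (m.pop_surj μ hμ).choose_spec.1

theorem pop_push {μ : U h} (hμ : Holds h μ m.D) : m.pop (m.push μ) = μ := by
  rw [push, dif_pos hμ]; exact (m.pop_surj μ hμ).choose_spec.2

theorem push_pop {ν : U h} (hν : Holds h ν m.E) : m.push (m.pop ν) = ν :=
  m.pop_inj (m.push_mem (m.pop_mem hν)) hν (m.pop_push (m.pop_mem hν))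

theorem push_val {μ : U h} (hμ : Holds h μ m.D) (A : Kappa d) :
    Holds h (m.push μ) (m.k A) ↔ μ.1 A = true := by
  rw [← m.pop_val (m.push_mem hμ), m.pop_push hμ]

theorem push_inj {μ μ' : U h} (hμ : Holds h μ m.D) (hμ' : Holds h μ' m.D)
    (e : m.push μ = m.push μ') : μ = μ' := by
  rw [← m.pop_push hμ, e, m.pop_push hμ']

end Move

end Vale.Agent.P193.Core.Empty.Glue
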