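import Vale.Agent.P193.Full.Core.Empty.Glue.Defs
import Vale.Agent.P193.Full.Core.Empty.Reads

/-! How valuations read translated bases and behave at edges and pushes: what the assembly of the
structure of virtual points needs besides its axioms. -/

namespace Vale.Agent.P193.Core.Empty.Glue

open Calc Inst Classical

set_option linter.unusedSectionVars false

variable {d : Data} [DecidableEq d.M.A] {F : Calc.Frame (Point d)} {M : F.Model} (E : Env M)

/-- A translated flat atom is read after the two translations. -/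
theorem val_base_shift (k : Outer d) (m : Inner d) (B : Base d) (u : Pt E)
    (A : Kappa d) (hA : A.1 = .base [] k m B) :
    u.1 A = (vG E m (vH E k u)).1 (at1 B) := by
  rw [gAct_val, hAct_val]
  exact congrArg u.1 (Subtype.ext (by rw [hA]; simp [outK, inK, at1, Inst.Atom.inShift, Inst.Atom.outShift]))

/-- A translated pushed atom is read after the two translations. -/
theorem val_push_shift (k : Outer d) (m : Inner d) (p : Inst.Push) (A₀ : Inst.Atom d) (u : Pt E)
    (A A' : Kappa d) (hA : A.1 = .push [] k m p A₀) (hA' : A'.1 = .push [] 1 1 p A₀) :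
    u.1 A = (vG E m (vH E k u)).1 A' := by
  rw [gAct_val, hAct_val]
  exact congrArg u.1 (Subtype.ext (by rw [hA]; simp [outK, inK, hA', Inst.Atom.inShift, Inst.Atom.outShift]))

theorem consEdge_ok_of {e : OEdge d} {A : Inst.Atom d} (hA : A.Ok) (hs : A.st = e.1.tgt) :
    (A.consEdge e).Ok := by
  cases A with
  | base π k m B => exact ⟨hs.symm, hA⟩
  | push π k m p A => exact ⟨⟨hs.symm, hA.1⟩, hA.2⟩

/-- The atom of the images of an edge at a tag. -/
def cylK (e : OEdge d) (b : Bool) : Kappa d :=
  ⟨(at1 (stB e.1.tgt b)).1.consEdge e, consEdge_ok_of (at1 _).2 rfl⟩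

theorem fld_cylK (R : Rig M) (e : OEdge d) (b : Bool) :
    kfld M (cylK e b) = setFld M (edgeTS e b) := by
  rw [← R.edge_img e b, ← fld_at1 R]
  show ((at1 (stB e.1.tgt b)).1.consEdge e).fld M = _
  exact Inst.Atom.consEdge_fld M e _

/-- An atom behind an edge holds only in the image of the edge at its tag. -/
theorem val_cyl {e : OEdge d} {A : Inst.Atom d} (hA : A.Ok) (hs : A.st = e.1.tgt) (u : Pt E)
    (A' : Kappa d) (hA' : A'.1 = A.consEdge e) (hu : u.1 A' = true) :
    u.1 (cylK e A.tag) = true := by
  refine val_le E.ctx ?_ u hu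
  rw [fld_cylK E.rig, ← E.rig.edge_img,
    show kfld M A' = cj (edgeX M e) (A.fld M) by
      show A'.1.fld M = _
      rw [hA']; exact Inst.Atom.consEdge_fld M e A]
  have := E.rig.le_st hA
  rw [hs] at this
  exact le_cj _ this

/-- The atom of the image of a push from a state and tag. -/
def imK (p : Inst.Push) (s : State d) (b : Bool) (h : Inst.Atom.Dom p (at1 (p.domB s b)).1) :
    Kappa d :=
  ⟨.push [] 1 1 p (at1 (p.domB s b)).1, trivial, (at1 _).2, h⟩

theorem dom_domB {p : Inst.Push} {s : State d} {b : Bool} (h : p.DomAt s b) :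
    Inst.Atom.Dom p (at1 (p.domB s b)).1 := by
  cases p with
  | theta => trivial
  | omC => exact h
  | omD => exact h
  | omK => exact h
  | tMap => exact ⟨h.1, rfl, rfl, h.2, Or.inl rfl⟩

theorem fld_imK (R : Rig M) {p : Inst.Push} {s : State d} {b : Bool} (h : p.DomAt s b) :
    kfld M (imK p s b (dom_domB h)) = setFld M (p.imS s b) := by
  rw [← R.push_img p s b h]
  show (Inst.Atom.push [] 1 1 p _).fld M = _
  rw [fld_push_nil, R.out_one, R.in_one, cj_one, cj_one]
  exact congrArg (cj (pushX M p s)) (fld_at1 R _)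

/-- A pushed atom holds only in the image of the push from its state and tag. -/
theorem val_im {p : Inst.Push} {A : Inst.Atom d} (hA : A.Ok) (hd : Inst.Atom.Dom p A) (u : Pt E)
    (A' : Kappa d) (hA' : A'.1 = .push [] 1 1 p A) (hu : u.1 A' = true) :
    ∃ h : p.DomAt A.st A.tag, u.1 (imK p A.st A.tag (dom_domB h)) = true := by
  obtain ⟨h, -⟩ := E.rig.le_dom hA hd
  refine ⟨h, val_le E.ctx ?_ u hu⟩
  rw [fld_imK E.rig h,
    show kfld M A' = cj (pushX M p A.st) (A.fld M) by
      show A'.1.fld M = _
      rw [hA', fld_push_nil, E.rig.out_one, E.rig.in_one, cj_one, cj_one]]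
  exact E.rig.le_im hA hd

end Vale.Agent.P193.Core.Empty.Glue
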