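import Vale.Agent.P193.Full.Core.Empty.Glue.Basic
import Vale.Agent.P193.Full.Core.Empty.Glue.Read

/-! Translated flat atoms at valuations say what their observations say. -/

namespace Vale.Agent.P193.Core.Empty.Glue

open Calc Inst Classical

set_option linter.unusedSectionVars false

variable {d : Data} [DecidableEq d.M.A] {F : Calc.Frame (Point d)} {M : F.Model}

variable (M) in
/-- The predicate of point and trivial outer coordinate is their conjunction. -/
def GHFact : Prop :=
  Valid M (.iff' (.pr .gHOne 1) (.conj (.pr .gOne 1) (.pr .hOne 1)))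

theorem ev_ghFact (hG : Core.Good d) (hF : IsCore F) : F.Ev (GHFact (F := F)) :=
  ev_valid hG hF _ fun x => by
    rw [Fm.real_iff]
    show _ ↔ Fm.real _ x ∧ Fm.real _ x
    rw [real_one, real_one, real_one]
    exact Iff.rfl

/-- A translated flat atom holds exactly at the state and tag of its base, where the predicate
holds after the translations. -/
theorem base_reads (E : Env M) (B : BasicFacts M) (G : GHFact M) (V : VSpace d) (φ : Pt E ≃ V.U)
    (hst : ∀ ν, V.st (φ ν) = vst E ν) (htag : ∀ ν, V.tag (φ ν) = vtag E ν)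
    (hcl : ∀ ν, V.cl (φ ν) ↔ vcl E ν) (hfr : ∀ ν, V.fr (φ ν) = vfr E ν)
    (hh : ∀ ν, V.hOne (φ ν) ↔ vhOne E ν) (hg : ∀ ν, V.gOne (φ ν) ↔ vgOne E ν)
    (hk : ∀ ν, V.kOne (φ ν) ↔ vkOne E ν) (hH : ∀ t ν, V.hA t (φ ν) = φ (vH E t ν))
    (hGa : ∀ t ν, V.gA t (φ ν) = φ (vG E t ν))
    (u : Pt E) (k : Outer d) (m : Inner d) (B₀ : Base d) (A : Kappa d)
    (hA : A.1 = .base [] k m B₀) :
    u.1 A = true ↔ V.Holds (obBase k m B₀) (φ u) := by
  obtain ⟨s, b, p⟩ := B₀
  rw [val_base_shift E k m ⟨s, b, p⟩ u A hA]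
  set w := vG E m (vH E k u) with hw
  have hs : vst E w = vst E u := by rw [hw, st_g E B, st_h E B]
  have hb : vtag E w = vtag E u := by rw [hw, tag_g E B, tag_h E B]
  have key : ∀ q : Pred d, vst E w = s → vtag E w = b →
      (w.1 (at1 ⟨s, b, q⟩) = true ↔ P E.ctx w q) := by
    rintro q rfl rfl
    exact (P_at E B.covers w q).symm
  simp only [obBase, VSpace.Holds]
  have hst' : V.Holds (.atom (.st s)) (φ u) ↔ vst E u = s := by
    simp only [VSpace.Holds, VSpace.AHolds, hst]
  have htag' : V.Holds (if b then .atom .tag else .not (.atom .tag)) (φ u) ↔ vtag E u = b := by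
    cases b <;> simp [VSpace.Holds, VSpace.AHolds, htag]
  rw [htag', show V.AHolds (.st s) (φ u) ↔ vst E u = s from hst']
  constructor
  · intro h
    obtain ⟨e1, e2⟩ := vst_of_val E B.covers h
    have hP := (key p e1 e2).1 h
    refine ⟨⟨hs.symm.trans e1, hb.symm.trans e2⟩, ?_⟩
    revert hP
    cases p <;> simp only [obPred, VSpace.Holds, VSpace.AHolds, hH, hGa, hcl, hfr, hh, hg, hk]
    · exact fun _ => trivial
    · exact fun h => (hOne_g E B m _).1 h
    · intro h
      rw [← fr_g E B m, vfr_iff E B]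
      exact (virt_one E _ w).2 h
    · intro h
      rw [← fr_g E B m, vfr_iff E B]
      exact (virt_one E _ w).2 h
    · exact fun h => (cl_h E B k u).1 ((cl_g E B m _).1 h)
    · exact fun h => (gOne_h E B k (vG E m u)).1 (by rwa [← comm_gh E k m u])
    · exact fun h => (kOne_h E B k (vG E m u)).1 (by rwa [← comm_gh E k m u])
    · intro h
      have := (Fm.virt_iff.1 (G E w)).1 ((virt_one E _ w).2 h)
      exact ⟨(gOne_h E B k (vG E m u)).1 (by rw [← comm_gh E k m u]; exact (virt_one E _ w).1 this.1),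
        (hOne_g E B m _).1 ((virt_one E _ w).1 this.2)⟩
  · rintro ⟨⟨e1, e2⟩, hP⟩
    refine (key p (hs.trans e1) (hb.trans e2)).2 ?_
    revert hP
    cases p <;> simp only [obPred, VSpace.Holds, VSpace.AHolds, hH, hGa, hcl, hfr, hh, hg, hk]
    · intro _
      show P E.ctx w .full
      rw [P_at E B.covers]
      exact at_vst E B.covers w
    · exact fun h => (hOne_g E B m _).2 h
    · intro h
      rw [← fr_g E B m, vfr_iff E B] at h
      exact (virt_one E _ w).1 h
    · intro h
      rw [← fr_g E B m, vfr_iff E B] at h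
      exact (virt_one E _ w).1 h
    · exact fun h => (cl_g E B m _).2 ((cl_h E B k u).2 h)
    · intro h
      have := (gOne_h E B k (vG E m u)).2 h
      rwa [← comm_gh E k m u] at this
    · intro h
      have := (kOne_h E B k (vG E m u)).2 h
      rwa [← comm_gh E k m u] at this
    · rintro ⟨h1, h2⟩
      refine (virt_one E _ w).1 ((Fm.virt_iff.1 (G E w)).2 ⟨(virt_one E _ w).2 ?_,
        (virt_one E _ w).2 ((hOne_g E B m _).2 h2)⟩)
      have := (gOne_h E B k (vG E m u)).2 h1
      rwa [← comm_gh E k m u] at this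

end Vale.Agent.P193.Core.Empty.Glue
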