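import Vale.Agent.P193.Full.Core.Empty.Glue.Defs
import Vale.Agent.P193.Full.Core.Empty.PointSpace

/-! The axioms of virtual points about translations, seen offsets and states, at valuations.

A fact about state, tag and translated elementary predicates that is true at every point holds
eventually at every valuation (`ev_valid`); each axiom comes from finitely many such facts, moved
by the translations. -/

namespace Vale.Agent.P193.Core.Empty.Glue

open Calc Inst Classical

set_option linter.unusedSectionVars false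

variable {d : Data} [DecidableEq d.M.A] {F : Calc.Frame (Point d)} {M : F.Model}

/-- Boolean combinations of states, tag and translated elementary predicates. -/
inductive Fm (d : Data) where
  | st (s : State d)
  | tag
  | pr (p : Pred d) (t : Outer d)
  | neg (φ : Fm d)
  | conj (φ ψ : Fm d)

namespace Fm

/-- Disjunction. -/
def disj (φ ψ : Fm d) : Fm d := .neg (.conj (.neg φ) (.neg ψ))

/-- Implication. -/
def imp (φ ψ : Fm d) : Fm d := .neg (.conj φ (.neg ψ))

/-- Equivalence. -/
def iff' (φ ψ : Fm d) : Fm d := .conj (imp φ ψ) (imp ψ φ)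

/-- The disjunction of a list. -/
def some' : List (Fm d) → Fm d
  | [] => .conj .tag (.neg .tag)
  | φ :: l => disj φ (some' l)

/-- The value at a point. -/
def real : Fm d → Point d → Prop
  | .st s, x => x.st = s
  | .tag, x => x.tag = true
  | .pr p t, x => pHA t x ∈ p.set
  | .neg φ, x => ¬ real φ x
  | .conj φ ψ, x => real φ x ∧ real ψ x

/-- The value at a valuation. -/
def virt (E : Env M) : Fm d → Pt E → Prop
  | .st s, ν => vst E ν = s
  | .tag, ν => vtag E ν = true
  | .pr p t, ν => P E.ctx (vH E t ν) p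
  | .neg φ, ν => ¬ virt E φ ν
  | .conj φ ψ, ν => virt E φ ν ∧ virt E ψ ν

/-- The term over a state and tag. -/
noncomputable def tm (s : State d) (b : Bool) : Fm d → Tm d
  | .st s' => if s = s' then .full else .diff .full .full
  | .tag => if b = true then .full else .diff .full .full
  | .pr p t => .var (outK (at1 ⟨s, b, p⟩) t)
  | .neg φ => .diff .full (tm s b φ)
  | .conj φ ψ => .inter (tm s b φ) (tm s b ψ)

theorem real_disj {φ ψ : Fm d} {x : Point d} : (disj φ ψ).real x ↔ φ.real x ∨ ψ.real x := by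
  simp only [disj, real]; tauto

theorem real_imp {φ ψ : Fm d} {x : Point d} : (imp φ ψ).real x ↔ (φ.real x → ψ.real x) := by
  simp only [imp, real]; tauto

theorem real_iff {φ ψ : Fm d} {x : Point d} : (iff' φ ψ).real x ↔ (φ.real x ↔ ψ.real x) := by
  simp only [iff', real, imp]; tauto

theorem real_some {l : List (Fm d)} {x : Point d} :
    (some' l).real x ↔ ∃ φ ∈ l, φ.real x := by
  induction l with
  | nil => simp [some', real]
  | cons φ l ih => simp [some', real_disj, ih]

theorem virt_disj {φ ψ : Fm d} {E : Env M} {ν : Pt E} :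
    (disj φ ψ).virt E ν ↔ φ.virt E ν ∨ ψ.virt E ν := by
  simp only [disj, virt]; tauto

theorem virt_imp {φ ψ : Fm d} {E : Env M} {ν : Pt E} :
    (imp φ ψ).virt E ν ↔ (φ.virt E ν → ψ.virt E ν) := by
  simp only [imp, virt]; tauto

theorem virt_iff {φ ψ : Fm d} {E : Env M} {ν : Pt E} :
    (iff' φ ψ).virt E ν ↔ (φ.virt E ν ↔ ψ.virt E ν) := by
  simp only [iff', virt, imp]; tauto

theorem virt_some {l : List (Fm d)} {E : Env M} {ν : Pt E} :
    (some' l).virt E ν ↔ ∃ φ ∈ l, φ.virt E ν := by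
  induction l with
  | nil => simp [some', virt]
  | cons φ l ih => simp [some', virt_disj, ih]

end Fm

variable (M) in
/-- A fact holds at every valuation. -/
def Valid (φ : Fm d) : Prop := ∀ (E : Env M) (ν : Pt E), φ.virt E ν

theorem tm_holds (E : Env M) (hc : Covers M) (ν : Pt E) :
    ∀ φ : Fm d, Holds E.ctx ν (φ.tm (vst E ν) (vtag E ν)) ↔ φ.virt E ν
  | .st s => by
    by_cases e : vst E ν = s <;> simp [Fm.tm, Fm.virt, e, Holds, Ctx.Holds]
  | .tag => by
    by_cases e : vtag E ν = true <;> simp [Fm.tm, Fm.virt, e, Holds, Ctx.Holds]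
  | .pr p t => by
    show ν.1 _ = true ↔ P E.ctx (vH E t ν) p
    rw [P_at E hc, (vst_out E hc t ν).1, (vst_out E hc t ν).2, hAct_val]
  | .neg φ => by
    show (True ∧ ¬ Holds E.ctx ν (φ.tm _ _)) ↔ _
    rw [tm_holds E hc ν φ]; simp [Fm.virt]
  | .conj φ ψ => by
    show (Holds E.ctx ν (φ.tm _ _) ∧ Holds E.ctx ν (ψ.tm _ _)) ↔ _
    rw [tm_holds E hc ν φ, tm_holds E hc ν ψ]; rfl

theorem mem_cellT {s : State d} {b : Bool} {x : Point d} :
    x ∈ tsetK (cellT s b) ↔ x.st = s ∧ x.tag = b := by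
  show x ∈ Facts.gimg (Facts.hT 1) (Facts.gimg (Facts.gT 1) (stB s b).set) ↔ _
  simp [Facts.mem_gimg_hT, Facts.mem_gimg_gT, Base.set, stB, Pred.set, Facts.atS, tagIs]

theorem mem_tm {s : State d} {b : Bool} {x : Point d} (hs : x.st = s) (hb : x.tag = b) :
    ∀ φ : Fm d, x ∈ tsetK (φ.tm s b) ↔ φ.real x
  | .st s' => by
    by_cases e : s = s' <;> simp [Fm.tm, Fm.real, e, hs, tsetK]
  | .tag => by
    cases b <;> simp [Fm.tm, Fm.real, hb, tsetK]
  | .pr p t => by
    show x ∈ Facts.gimg (Facts.hT (1 * t)) (Facts.gimg (Facts.gT 1) (Base.set ⟨s, b, p⟩)) ↔ _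
    simp [Facts.mem_gimg_hT, Facts.mem_gimg_gT, Base.set, Facts.atS, tagIs, hs, hb, Fm.real,
      pHA_apply]
  | .neg φ => by
    show x ∈ Set.univ \ tsetK (φ.tm s b) ↔ _
    simp [mem_tm hs hb φ, Fm.real]
  | .conj φ ψ => by
    show x ∈ tsetK (φ.tm s b) ∩ tsetK (ψ.tm s b) ↔ _
    simp [mem_tm hs hb φ, mem_tm hs hb ψ, Fm.real]

/-- A fact true at every point holds eventually at every valuation. -/
theorem ev_valid (hG : Core.Good d) (hF : IsCore F) (φ : Fm d) (hφ : ∀ x, φ.real x) :
    F.Ev fun M => Valid M φ := by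
  have := Facts.finite_state (d := d)
  refine ((ev_covers hG hF).and (Frame.Ev.all fun p : State d × Bool =>
    ev_never hG hF (.inter (cellT p.1 p.2) (.diff .full (φ.tm p.1 p.2))) ?_)).mono ?_
  · refine Set.eq_empty_of_forall_notMem fun x hx => ?_
    obtain ⟨hs, hb⟩ := mem_cellT.1 hx.1
    exact hx.2.2 ((mem_tm hs hb φ).2 (hφ x))
  · rintro M ⟨hc, hn⟩ E ν
    by_contra hne
    exact hn (vst E ν, vtag E ν) E.ctx ν
      ⟨at_vst E hc ν, trivial, fun ht => hne ((tm_holds E hc ν φ).1 ht)⟩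

/-- A fact that is true at every point when a condition holds. -/
theorem ev_valid_if (hG : Core.Good d) (hF : IsCore F) (c : Prop) (φ : Fm d)
    (hφ : c → ∀ x, φ.real x) : F.Ev fun M => c → Valid M φ := by
  by_cases hc : c
  · exact (ev_valid hG hF φ (hφ hc)).mono fun M h _ => h
  · exact Frame.Ev.of_forall fun M h => absurd h hc

/-! ### The facts -/

/-- The translated predicate that the front takes a value. -/
def frT : Option (Ltr d × Bool) → Outer d → Fm d
  | none, t => .pr .zOne t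
  | some c, t => .pr (.zFront c) t

/-- All signed letters. -/
noncomputable def allLtr (d : Data) : List (Ltr d × Bool) :=
  have := Facts.finite_ltr (d := d)
  (Fintype.ofFinite (Ltr d × Bool)).elems.toList

theorem mem_allLtr (c : Ltr d × Bool) : c ∈ allLtr d := by
  have := Facts.finite_ltr (d := d)
  exact Finset.mem_toList.2 ((Fintype.ofFinite (Ltr d × Bool)).complete c)

/-- Clean, at trivial outer coordinate, at the tag with point predicate, seeing a certificate. -/
noncomputable def cert (b : Bool) : Fm d :=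
  .conj (.pr .clean 1) (.conj (.pr .hOne 1) (.conj (.neg .tag) (frT none (lT ((cval d b)⁻¹)))))

variable (M) in
/-- The finitely many facts behind the axioms of this file. -/
structure BasicFacts : Prop where
  covers : Covers M
  fr_total : Valid M
    (.disj (frT none 1) (Fm.some' ((allLtr d).map fun c => frT (some c) 1)))
  fr_one : ∀ c : Ltr d × Bool, Valid M (.neg (.conj (frT none 1) (frT (some c) 1)))
  fr_two : ∀ c c' : Ltr d × Bool, c ≠ c' →
    Valid M (.neg (.conj (frT (some c) 1) (frT (some c') 1)))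
  left_ne : ∀ c : Ltr d × Bool,
    Valid M (.disj (frT (some (flipS c)) 1) (frT (some c) (lT (sl c))))
  left_eq : ∀ c : Ltr d × Bool,
    Valid M (.neg (.conj (frT (some (flipS c)) 1) (frT (some c) (lT (sl c)))))
  right : ∀ a c : Ltr d × Bool, Valid M (.neg (.conj (frT (some a) 1)
    (.conj (.neg (frT none (rT (sl c)))) (.neg (frT (some a) (rT (sl c)))))))
  diag : ∀ a : Ltr d, Valid M
    (.iff' (frT none 1) (frT none (1, FreeGroup.of a, FreeGroup.of a)))
  sub : ∀ (o : Option (Ltr d × Bool)) (x : {x // x ∈ d.subGens}),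
    Valid M (.iff' (frT o 1) (frT o (x.1, 1, 1)))
  cl_guess : Valid M (.imp (.pr .clean 1) (.st .guess))
  gOne_tag : Valid M (.imp (.pr .gOne 1) (.neg .tag))
  kOne_tag : Valid M (.imp (.pr .kSet 1) (.conj (.neg .tag) (.st .guess)))
  shape : ∀ (s : State d) (o : Option (Ltr d × Bool)), ¬ FrShape s o →
    Valid M (.neg (.conj (.st s) (.conj (.pr .hOne 1) (frT o 1))))
  live : ∀ s : State d, ¬ Nonempty (Path d s) → Valid M (.neg (.st s))
  cert_true : Valid M (.imp (cert true) (.iff' (.pr .gOne 1) (.pr .kSet 1)))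
  cert_false : Valid M (.imp (cert false) (.neg (.conj (.pr .gOne 1) (.pr .kSet 1))))

theorem real_frT (hG : Core.Good d) (o : Option (Ltr d × Bool)) (t : Outer d) (x : Point d) :
    (frT o t).real x ↔ (pointSpace hG).fr ((pointSpace hG).hA t x) = o := by
  cases o with
  | none => exact head?_eq_none_iff_eq_one.symm
  | some c => exact Iff.rfl

theorem real_one (p : Pred d) (x : Point d) : (Fm.pr p 1).real x ↔ x ∈ p.set := by
  show pHA 1 x ∈ p.set ↔ _
  rw [map_one]; rfl

theorem real_frT_one (hG : Core.Good d) (o : Option (Ltr d × Bool)) (x : Point d) :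
    (frT o 1).real x ↔ (pointSpace hG).fr x = o := by
  rw [real_frT hG, map_one]; rfl

theorem real_cert (hG : Core.Good d) {b : Bool} {x : Point d} (h : (cert b).real x) :
    (pointSpace hG).cl x ∧ (pointSpace hG).hOne x ∧ (pointSpace hG).tag x = false ∧
      (pointSpace hG).fr ((pointSpace hG).hA (lT ((cval d b)⁻¹)) x) = none := by
  obtain ⟨h1, h2, h3, h4⟩ := h
  exact ⟨(real_one _ x).1 h1, (real_one _ x).1 h2, Bool.eq_false_iff.2 h3, (real_frT hG _ _ _).1 h4⟩

theorem ev_basicFacts (hG : Core.Good d) (hF : IsCore F) : F.Ev (BasicFacts (F := F)) := by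
  have := Facts.finite_ltr (d := d)
  have := Facts.finite_state (d := d)
  have : Finite (Ltr d) := Finite.of_injective (fun a => (a, true)) fun a b h => congrArg Prod.fst h
  let V := pointSpace hG
  have f1 := ev_valid hG hF (.disj (frT none 1)
      (Fm.some' ((allLtr d).map fun c => frT (some c) 1))) fun x => by
    rw [Fm.real_disj, Fm.real_some]
    cases ho : V.fr x with
    | none => exact Or.inl ((real_frT_one hG _ x).2 ho)
    | some c =>
      exact Or.inr ⟨_, List.mem_map.2 ⟨c, mem_allLtr c, rfl⟩, (real_frT_one hG _ x).2 ho⟩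
  have f2 := Frame.Ev.all fun c : Ltr d × Bool =>
    ev_valid hG hF (.neg (.conj (frT none 1) (frT (some c) 1))) fun x h => by
      have := ((real_frT_one hG _ x).1 h.1).symm.trans ((real_frT_one hG _ x).1 h.2)
      exact Option.some_ne_none c this.symm
  have f3 := Frame.Ev.all fun c : Ltr d × Bool => Frame.Ev.all fun c' : Ltr d × Bool =>
    ev_valid_if hG hF (c ≠ c') (.neg (.conj (frT (some c) 1) (frT (some c') 1))) fun hne x h =>
      hne (Option.some.inj
        (((real_frT_one hG _ x).1 h.1).symm.trans ((real_frT_one hG _ x).1 h.2)))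
  have f4 := Frame.Ev.all fun c : Ltr d × Bool =>
    ev_valid hG hF (.disj (frT (some (flipS c)) 1) (frT (some c) (lT (sl c)))) fun x => by
      rw [Fm.real_disj, real_frT_one hG, real_frT hG]
      exact Classical.or_iff_not_imp_left.2 (V.left_ne c x)
  have f5 := Frame.Ev.all fun c : Ltr d × Bool =>
    ev_valid hG hF (.neg (.conj (frT (some (flipS c)) 1) (frT (some c) (lT (sl c))))) fun x h =>
      V.left_eq c x ((real_frT_one hG _ x).1 h.1) ((real_frT hG _ _ x).1 h.2)
  have f6 := Frame.Ev.all fun a : Ltr d × Bool => Frame.Ev.all fun c : Ltr d × Bool =>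
    ev_valid hG hF (.neg (.conj (frT (some a) 1) (.conj (.neg (frT none (rT (sl c))))
      (.neg (frT (some a) (rT (sl c))))))) fun x h => by
      obtain ⟨h1, h2, h3⟩ := h
      have e := (real_frT_one hG _ x).1 h1
      refine h3 ((real_frT hG _ _ x).2 ?_)
      rw [V.right_eq c x (by rw [e]; exact Option.some_ne_none a)
        fun e' => h2 ((real_frT hG _ _ x).2 e'), e]
  have f7 := Frame.Ev.all fun a : Ltr d =>
    ev_valid hG hF (.iff' (frT none 1) (frT none (1, FreeGroup.of a, FreeGroup.of a))) fun x => by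
      rw [Fm.real_iff]
      simp [frT, Fm.real, Pred.set, Facts.zOneS, zval_pHA]
  have f8 := Frame.Ev.all fun o : Option (Ltr d × Bool) =>
    Frame.Ev.all fun y : {x // x ∈ d.subGens} =>
      ev_valid hG hF (.iff' (frT o 1) (frT o (y.1, 1, 1))) fun x => by
        rw [Fm.real_iff, real_frT_one hG, real_frT hG]
        exact ⟨fun h => (V.fr_k y.1 x).trans h, fun h => (V.fr_k y.1 x).symm.trans h⟩
  have f9 := ev_valid hG hF (.imp (.pr .clean 1) (.st .guess)) fun x => by
    rw [Fm.real_imp, real_one]; exact fun h => h.1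
  have f10 := ev_valid hG hF (.imp (.pr .gOne 1) (.neg .tag)) fun x => by
    rw [Fm.real_imp, real_one]; exact fun h => Bool.eq_false_iff.1 h.1
  have f11 := ev_valid hG hF (.imp (.pr .kSet 1) (.conj (.neg .tag) (.st .guess))) fun x => by
    rw [Fm.real_imp, real_one]; exact fun h => ⟨Bool.eq_false_iff.1 h.1, h.2.1⟩
  have f12 := Frame.Ev.all fun s : State d => Frame.Ev.all fun o : Option (Ltr d × Bool) =>
    ev_valid_if hG hF (¬ FrShape s o) (.neg (.conj (.st s) (.conj (.pr .hOne 1) (frT o 1))))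
      fun hne x h => by
        obtain ⟨hs, h1, h2⟩ := h
        have := V.shape x ((real_one _ x).1 h1)
        rw [(real_frT_one hG _ x).1 h2, show V.st x = s from hs] at this
        exact hne this
  have f13 := Frame.Ev.all fun s : State d =>
    ev_valid_if hG hF (¬ Nonempty (Path d s)) (.neg (.st s)) fun hne x h => hne (by
      have := V.live x
      rwa [show V.st x = s from h] at this)
  have f14 := ev_valid hG hF (.imp (cert true) (.iff' (.pr .gOne 1) (.pr .kSet 1))) fun x => by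
    rw [Fm.real_imp, Fm.real_iff, real_one, real_one]
    intro h
    obtain ⟨h1, h2, h3, h4⟩ := real_cert hG h
    exact V.rule1' x h1 h2 h3 h4
  have f15 := ev_valid hG hF (.imp (cert false) (.neg (.conj (.pr .gOne 1) (.pr .kSet 1))))
    fun x => by
      rw [Fm.real_imp]
      intro h hgk
      obtain ⟨h1, h2, h3, h4⟩ := real_cert hG h
      exact V.rule2 x h1 h2 h3 h4 ⟨(real_one _ x).1 hgk.1, (real_one _ x).1 hgk.2⟩
  refine ((ev_covers hG hF).and (f1.and (f2.and (f3.and (f4.and (f5.and (f6.and (f7.and (f8.and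
    (f9.and (f10.and (f11.and (f12.and (f13.and (f14.and f15))))))))))))))).mono ?_
  rintro M ⟨a0, a1, a2, a3, a4, a5, a6, a7, a8, a9, a10, a11, a12, a13, a14, a15⟩
  exact ⟨a0, a1, a2, a3, a4, a5, a6, a7, a8, a9, a10, a11, a12, a13, a14, a15⟩

/-! ### The axioms -/

variable (E : Env M)

theorem virt_one (p : Pred d) (ν : Pt E) : (Fm.pr p 1).virt E ν ↔ P E.ctx ν p := by
  show P E.ctx (vH E 1 ν) p ↔ _
  rw [map_one]; rfl

theorem comm_gh (t : Outer d) (k : Inner d) (ν : Pt E) :
    vG E k (vH E t ν) = vH E t (vG E k ν) :=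
  act_comm E.ctx E.rig E.laws t k ν

variable (B : BasicFacts M)
include B

/-- The front is read by the tree predicates. -/
theorem vfr_iff (ν : Pt E) (o : Option (Ltr d × Bool)) :
    vfr E ν = o ↔ (frT o 1).virt E ν := by
  have key : (frT (vfr E ν) 1).virt E ν := by
    rw [vfr]
    split_ifs with h1 h2
    · exact (virt_one E _ ν).2 h1
    · exact (virt_one E _ ν).2 h2.choose_spec
    · rcases Fm.virt_disj.1 (B.fr_total E ν) with h | h
      · exact absurd ((virt_one E _ ν).1 h) h1
      · obtain ⟨φ, hφ, hh⟩ := Fm.virt_some.1 h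
        obtain ⟨c, -, rfl⟩ := List.mem_map.1 hφ
        exact absurd ⟨c, (virt_one E _ ν).1 hh⟩ h2
  refine ⟨fun h => h ▸ key, fun h => ?_⟩
  revert key
  cases vfr E ν <;> cases o <;> intro key
  · rfl
  · exact absurd ⟨key, h⟩ (B.fr_one _ E ν)
  · exact absurd ⟨h, key⟩ (B.fr_one _ E ν)
  · exact Classical.byContradiction fun hne =>
      B.fr_two _ _ (fun e => hne (by rw [e])) E ν ⟨key, h⟩

/-- The front of a translated valuation. -/
theorem vfr_vH_iff (t : Outer d) (ν : Pt E) (o : Option (Ltr d × Bool)) :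
    vfr E (vH E t ν) = o ↔ (frT o t).virt E ν := by
  rw [vfr_iff E B]
  cases o <;> simp [frT, Fm.virt]

theorem st_h (t : Outer d) (ν : Pt E) : vst E (vH E t ν) = vst E ν :=
  (vst_out E B.covers t ν).1

theorem tag_h (t : Outer d) (ν : Pt E) : vtag E (vH E t ν) = vtag E ν :=
  (vst_out E B.covers t ν).2

theorem st_g (k : Inner d) (ν : Pt E) : vst E (vG E k ν) = vst E ν :=
  (vst_in E B.covers k ν).1

theorem tag_g (k : Inner d) (ν : Pt E) : vtag E (vG E k ν) = vtag E ν :=
  (vst_in E B.covers k ν).2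

theorem P_out {p : Pred d} (hp : p.OutFix) (t : Outer d) (ν : Pt E) :
    P E.ctx (vH E t ν) p ↔ P E.ctx ν p := by
  rw [P_at E B.covers, P_at E B.covers, st_h E B, tag_h E B, out_val]
  exact hp

theorem P_in {p : Pred d} (hp : p.InFix) (k : Inner d) (ν : Pt E) :
    P E.ctx (vG E k ν) p ↔ P E.ctx ν p := by
  rw [P_at E B.covers, P_at E B.covers, st_g E B, tag_g E B, in_val]
  exact hp

theorem cl_h (t : Outer d) (ν : Pt E) : vcl E (vH E t ν) ↔ vcl E ν := P_out E B (p := .clean) trivial t ν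

theorem gOne_h (t : Outer d) (ν : Pt E) : vgOne E (vH E t ν) ↔ vgOne E ν := P_out E B (p := .gOne) trivial t ν

theorem kOne_h (t : Outer d) (ν : Pt E) : vkOne E (vH E t ν) ↔ vkOne E ν := P_out E B (p := .kSet) trivial t ν

theorem cl_g (k : Inner d) (ν : Pt E) : vcl E (vG E k ν) ↔ vcl E ν := P_in E B (p := .clean) trivial k ν

theorem hOne_g (k : Inner d) (ν : Pt E) : vhOne E (vG E k ν) ↔ vhOne E ν := P_in E B (p := .hOne) trivial k ν

theorem fr_g (k : Inner d) (ν : Pt E) : vfr E (vG E k ν) = vfr E ν := by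
  rw [vfr_iff E B]
  have h := (vfr_iff E B ν _).1 (rfl : vfr E ν = vfr E ν)
  revert h
  cases vfr E ν
  · simp only [frT]; rw [virt_one, virt_one, P_in E B (p := .zOne) trivial]; exact id
  · next c => simp only [frT]; rw [virt_one, virt_one, P_in E B (p := .zFront c) trivial]; exact id

theorem fr_k (hG : Core.Good d) (k : d.Γ₀) (ν : Pt E) :
    vfr E (vH E (k, 1, 1) ν) = vfr E ν := by
  have hk : k ∈ Subgroup.closure (d.subGens : Set d.Γ₀) := hG.subGens_top ▸ Subgroup.mem_top k
  induction hk using Subgroup.closure_induction generalizing ν with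
  | mem x hx =>
    rw [vfr_vH_iff E B]
    exact (Fm.virt_iff.1 (B.sub _ ⟨x, hx⟩ E ν)).1 ((vfr_iff E B ν _).1 rfl)
  | one => rw [show ((1, 1, 1) : Outer d) = 1 from rfl, map_one]; rfl
  | mul x y _ _ hx hy =>
    rw [show ((x * y, 1, 1) : Outer d) = (x, 1, 1) * (y, 1, 1) by simp, map_mul,
      Equiv.Perm.mul_apply, hx, hy]
  | inv x _ hx =>
    conv_rhs => rw [show ν = vH E ((x, 1, 1) * (x⁻¹, 1, 1)) ν by
      rw [show ((x, 1, 1) : Outer d) * (x⁻¹, 1, 1) = 1 by simp, map_one]; rfl]
    rw [map_mul, Equiv.Perm.mul_apply, hx]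

theorem left_ne (c : Ltr d × Bool) (ν : Pt E) (h : vfr E ν ≠ some (flipS c)) :
    vfr E (vH E (lT (sl c)) ν) = some c := by
  rw [vfr_vH_iff E B]
  exact (Fm.virt_disj.1 (B.left_ne c E ν)).resolve_left fun h' => h ((vfr_iff E B ν _).2 h')

theorem left_eq (c : Ltr d × Bool) (ν : Pt E) (h : vfr E ν = some (flipS c)) :
    vfr E (vH E (lT (sl c)) ν) ≠ some c := fun h' =>
  B.left_eq c E ν ⟨(vfr_iff E B ν _).1 h, (vfr_vH_iff E B _ ν _).1 h'⟩

theorem right_eq (c : Ltr d × Bool) (ν : Pt E) (h : vfr E ν ≠ none)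
    (h' : vfr E (vH E (rT (sl c)) ν) ≠ none) : vfr E (vH E (rT (sl c)) ν) = vfr E ν := by
  obtain ⟨a, ha⟩ := Option.ne_none_iff_exists'.1 h
  rw [ha, vfr_vH_iff E B]
  exact Classical.byContradiction fun hne => B.right a c E ν
    ⟨(vfr_iff E B ν _).1 ha, fun h1 => h' ((vfr_vH_iff E B _ ν _).2 h1), hne⟩

theorem conj_none (s : FA d) (ν : Pt E) (h : vfr E ν = none) :
    vfr E (vH E (1, s, s) ν) = none := by
  suffices H : ∀ ν, vfr E ν = none ↔ vfr E (vH E (1, s, s) ν) = none from (H ν).1 h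
  clear h ν
  induction s using FreeGroup.induction_on with
  | C1 =>
    intro ν
    rw [show ((1, 1, 1) : Outer d) = 1 from rfl, map_one]; rfl
  | of a =>
    intro ν
    rw [vfr_iff E B, vfr_vH_iff E B]
    exact Fm.virt_iff.1 (B.diag a E ν)
  | inv_of a ha =>
    intro ν
    rw [ha (vH E (1, (FreeGroup.of a)⁻¹, (FreeGroup.of a)⁻¹) ν), ← Equiv.Perm.mul_apply,
      ← map_mul, show ((1, FreeGroup.of a, FreeGroup.of a) : Outer d) *
        (1, (FreeGroup.of a)⁻¹, (FreeGroup.of a)⁻¹) = 1 by simp, map_one]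
    rfl
  | mul x y hx hy =>
    intro ν
    rw [show ((1, x * y, x * y) : Outer d) = (1, x, x) * (1, y, y) by simp, map_mul,
      Equiv.Perm.mul_apply, hy, hx]

theorem cl_guess (ν : Pt E) (h : vcl E ν) : vst E ν = .guess :=
  Fm.virt_imp.1 (B.cl_guess E ν) ((virt_one E _ ν).2 h)

theorem gOne_tag (ν : Pt E) (h : vgOne E ν) : vtag E ν = false :=
  Bool.eq_false_iff.2 (Fm.virt_imp.1 (B.gOne_tag E ν) ((virt_one E _ ν).2 h))

theorem kOne_tag (ν : Pt E) (h : vkOne E ν) : vtag E ν = false ∧ vst E ν = .guess :=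
  have h' := Fm.virt_imp.1 (B.kOne_tag E ν) ((virt_one E _ ν).2 h)
  ⟨Bool.eq_false_iff.2 h'.1, h'.2⟩

theorem gdisj (k : Inner d) (ν : Pt E) (h : vgOne E ν) (h' : vgOne E (vG E k ν)) : k = 1 := by
  by_contra hne
  rw [vgOne, P_at E B.covers] at h h'
  rw [st_g E B, tag_g E B, gAct_val] at h'
  refine not_both E.ctx ?_ ν h h'
  rw [show kfld M (inK (at1 ⟨vst E ν, vtag E ν, .gOne⟩) k) =
      cj (inX M k) (kfld M (at1 ⟨vst E ν, vtag E ν, .gOne⟩)) from
        E.rig.fld_inShift E.laws (at1 _).2 k, fld_at1 E.rig]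
  have := E.laws.g_disj (vst E ν) (vtag E ν) 1 k (Ne.symm hne)
  rwa [E.rig.in_one, cj_one] at this

theorem shape (ν : Pt E) (h : vhOne E ν) : FrShape (vst E ν) (vfr E ν) :=
  Classical.byContradiction fun hne => B.shape _ _ hne E ν
    ⟨rfl, (virt_one E _ ν).2 h, (vfr_iff E B ν _).1 rfl⟩

theorem live (ν : Pt E) : Nonempty (Path d (vst E ν)) :=
  Classical.byContradiction fun hne => B.live _ hne E ν rfl

theorem virt_cert {b : Bool} {ν : Pt E} (h1 : vcl E ν) (h2 : vhOne E ν) (h3 : vtag E ν = false)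
    (h4 : vfr E (vH E (lT ((cval d b)⁻¹)) ν) = none) : (cert b).virt E ν :=
  ⟨(virt_one E _ ν).2 h1, (virt_one E _ ν).2 h2, Bool.eq_false_iff.1 h3,
    (vfr_vH_iff E B _ ν _).1 h4⟩

theorem rule1' (ν : Pt E) (h1 : vcl E ν) (h2 : vhOne E ν) (h3 : vtag E ν = false)
    (h4 : vfr E (vH E (lT ((cval d true)⁻¹)) ν) = none) : vgOne E ν ↔ vkOne E ν := by
  have := Fm.virt_iff.1 (Fm.virt_imp.1 (B.cert_true E ν) (virt_cert E B h1 h2 h3 h4))
  rwa [virt_one, virt_one] at this

theorem rule2 (ν : Pt E) (h1 : vcl E ν) (h2 : vhOne E ν) (h3 : vtag E ν = false)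
    (h4 : vfr E (vH E (lT ((cval d false)⁻¹)) ν) = none) : ¬ (vgOne E ν ∧ vkOne E ν) :=
  fun h => Fm.virt_imp.1 (B.cert_false E ν) (virt_cert E B h1 h2 h3 h4)
    ⟨(virt_one E _ ν).2 h.1, (virt_one E _ ν).2 h.2⟩

end Vale.Agent.P193.Core.Empty.Glue
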