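import Vale.Agent.P193.Full.Core.Empty.Glue.Base

/-! The shared definitions of the structure of virtual points on valuations: what is assumed of a
model, and the base predicates. Each group of axioms is proved in its own file from these. -/

namespace Vale.Agent.P193.Core.Empty.Glue

open Calc Inst Classical

set_option linter.unusedSectionVars false

variable {d : Data} [DecidableEq d.M.A] {F : Calc.Frame (Point d)}

/-- What the construction assumes of a model besides its finitely many facts. -/
structure Env (M : F.Model) : Prop where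
  ctx : CtxOK M
  rig : Rig M
  laws : GroupLaws M

variable {M : F.Model} (E : Env M)

/-- The virtual points of a model. -/
abbrev Pt := U E.ctx

/-- The outer action. -/
noncomputable abbrev vH : Outer d →* Equiv.Perm (Pt E) := hAct E.ctx E.rig E.laws

/-- The inner action. -/
noncomputable abbrev vG : Inner d →* Equiv.Perm (Pt E) := gAct E.ctx E.rig E.laws

/-- The state of a valuation. -/
noncomputable def vst (ν : Pt E) : State d :=
  if hh : ∃ s b, At E.ctx ν s b then hh.choose else .fin

/-- The tag of a valuation. -/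
noncomputable def vtag (ν : Pt E) : Bool :=
  if hh : ∃ s b, At E.ctx ν s b then hh.choose_spec.choose else false

/-- The front of the offset of a valuation. -/
noncomputable def vfr (ν : Pt E) : Option (Ltr d × Bool) :=
  if P E.ctx ν .zOne then none
  else if hh : ∃ s, P E.ctx ν (.zFront s) then some hh.choose else none

/-- Clean. -/
def vcl (ν : Pt E) : Prop := P E.ctx ν .clean

/-- Trivial outer coordinate. -/
def vhOne (ν : Pt E) : Prop := P E.ctx ν .hOne

/-- Trivial inner coordinate at the tag with point predicate. -/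
def vgOne (ν : Pt E) : Prop := P E.ctx ν .gOne

/-- Guessed times inner coordinate is trivial. -/
def vkOne (ν : Pt E) : Prop := P E.ctx ν .kSet

/-- The term of a state and tag. -/
def cellT (s : State d) (b : Bool) : Tm d := .var (at1 (stB s b))

variable (M) in
/-- Every valuation lies at some state and tag. -/
def Covers : Prop := ∀ (h : CtxOK M) (ν : U h), ∃ s b, At h ν s b

theorem ev_covers (hG : Core.Good d) (hF : IsCore F) : F.Ev (Covers (F := F)) := by
  have := Facts.finite_state (d := d)
  have := Fintype.ofFinite (State d)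
  let l : List (Tm d) := (Finset.univ : Finset (State d × Bool)).toList.map fun p =>
    cellT p.1 p.2
  refine (ev_never hG hF (.diff .full (tOr l)) ?_).mono fun M hn h ν => ?_
  · refine Set.eq_empty_of_forall_notMem fun x hx => hx.2 (mem_tOr.2 ?_)
    refine ⟨cellT x.st x.tag, List.mem_map.2 ⟨(x.st, x.tag), by simp, rfl⟩, ?_⟩
    show x ∈ (at1 (stB x.st x.tag)).1.set
    exact Facts.mem_gimg_hT.2 (Facts.mem_gimg_gT.2 ⟨⟨by simp [Facts.atS, stB], by
      simp [tagIs, stB]⟩, trivial⟩)
  · by_contra hne
    refine hn h ν ⟨trivial, fun ht => ?_⟩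
    obtain ⟨t, hm, hv⟩ := (holds_tOr h ν).1 ht
    obtain ⟨p, -, rfl⟩ := List.mem_map.1 hm
    exact hne ⟨p.1, p.2, hv⟩

theorem at_vst (hc : Covers M) (ν : Pt E) : At E.ctx ν (vst E ν) (vtag E ν) := by
  have hh := hc E.ctx ν
  rw [vst, vtag, dif_pos hh, dif_pos hh]
  exact hh.choose_spec.choose_spec

theorem vst_eq (hc : Covers M) {ν : Pt E} {s : State d} {b : Bool} (hν : At E.ctx ν s b) :
    vst E ν = s ∧ vtag E ν = b :=
  at_unique E.ctx E.rig (at_vst E hc ν) hν

/-- An atom that holds fixes state and tag. -/
theorem vst_of_val (hc : Covers M) {ν : Pt E} {A : Kappa d} (hA : ν.1 A = true) :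
    vst E ν = A.1.st ∧ vtag E ν = A.1.tag :=
  vst_eq E hc (at_of_val E.ctx E.rig hA)

/-- A predicate is read at the state and tag of the valuation. -/
theorem P_at (hc : Covers M) (ν : Pt E) (p : Pred d) :
    P E.ctx ν p ↔ ν.1 (at1 ⟨vst E ν, vtag E ν, p⟩) = true :=
  P_iff E.ctx E.rig (at_vst E hc ν) p

theorem vst_out (hc : Covers M) (t : Outer d) (ν : Pt E) :
    vst E (vH E t ν) = vst E ν ∧ vtag E (vH E t ν) = vtag E ν :=
  vst_eq E hc ((out_val (B := stB _ _) E.ctx E.rig E.laws trivial t ν).trans (at_vst E hc ν))

theorem vst_in (hc : Covers M) (t : Inner d) (ν : Pt E) :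
    vst E (vG E t ν) = vst E ν ∧ vtag E (vG E t ν) = vtag E ν :=
  vst_eq E hc ((in_val (B := stB _ _) E.ctx E.rig E.laws trivial t ν).trans (at_vst E hc ν))

end Vale.Agent.P193.Core.Empty.Glue
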