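import Vale.Agent.P193.Full.Core.Empty.Glue.Assembly
import Vale.Agent.P193.Full.Core.Empty.Glue.UMoveEdge
import Vale.Agent.P193.Full.Core.Empty.Glue.PushFacts

/-! The edge and push axioms at valuations hold eventually, so the emptiness part holds. -/

namespace Vale.Agent.P193.Core.Empty.Glue

open Calc Inst Classical

set_option linter.unusedSectionVars false

variable {d : Data} [DecidableEq d.M.A] {F : Calc.Frame (Point d)} {M : F.Model}

/-- The edge maps satisfy the edge axioms. -/
theorem edgeFields (E : Env M) (Φ : EdgeFacts M) : EdgeFields E (vedge E Φ) where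
  spec := edgeSpec E Φ
  decomp := edge_decomp E Φ
  inj := edge_inj E Φ
  st _ _ he hv := edge_st E he hv
  tag _ _ he hv := edge_tag E he hv
  fr _ _ he hv := edge_fr E he hv
  gOne _ _ he hv := edge_gOne E he hv
  edge_h _ _ t he hv := edge_h E he hv t
  edge_g _ _ k he hv := edge_g E he hv k
  hOne _ _ he hv := edge_hOne E he hv
  cl_letter _ i _ he hk hv := edge_cl_letter E he hv i hk
  cl_junk _ _ he hk hv := edge_cl_junk E he hv hk
  cl_other _ _ he hk hv := edge_cl_other E he hv hk
  k_letter _ i _ he hk hv := edge_k_letter E he hv i hk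
  k_other _ _ he hk hv := edge_k_other E he hv hk

theorem vDom_cdom {E : Env M} (K : Ctor d) (w : Pt E) : vDom E K w ↔ CDom K w := by
  cases K <;> exact Iff.rfl

/-- The push maps satisfy the push axioms. -/
theorem pushFields (E : Env M) (T : PushEnv E) : PushFields E (vpush T) where
  val p A A' w hd hA' hs hw := by
    have hw' : CDom (ctor1 p) w := (vDom_cdom _ w).1 hw
    by_cases hb : A.1.tag = vtag E w
    · exact push_read T hw' A hd hs.symm hb A' hA'
    · rw [Bool.eq_iff_iff]
      refine iff_of_false (fun h => hb ?_) fun h => hb (vst_of_val E T.covers h).2.symm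
      obtain rfl : A' = pA p A hd := Subtype.ext hA'
      obtain ⟨v, hv, -, hvb, e, -⟩ := exists_pv T hd h
      rw [vpush_ctor T] at e
      rw [(pv_inj T ((cdom_iff T p w).1 hw') hv e).2]
      exact hvb.symm
  cover p s b h u hu := by
    have hd : p.DomAt s b := (E.rig.le_dom (at1 (p.domB s b)).2 h).1
    obtain ⟨w, h1, h2, -, h4⟩ := push_cover T hd hu
    exact ⟨w, (vDom_cdom _ w).2 h1, h2, h4⟩
  st := push_st T
  tag := push_tag T
  hOne := push_hOne T
  theta_r := theta_r T
  theta_emb := theta_emb T
  theta_coset := theta_coset T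
  theta_inj := theta_inj T
  omC_inj := omC_inj T
  omD_inj := omD_inj T
  omK_inj := omK_inj T
  tM_inj := tM_inj T
  omC_g := omC_g T
  omD_g := omD_g T
  omK_g := omK_g T
  tM_g := tM_g T
  theta_gOne := theta_gOne T
  theta_gOne_range := theta_gOne_range T
  omD_gOne := omD_gOne T
  omK_gOne := omK_gOne T
  theta_omD := theta_omD T
  theta_omK := theta_omK T
  omD_omK := omD_omK T
  omC_tM := omC_tM T
  finC := finC T

end Vale.Agent.P193.Core.Empty.Glue

namespace Vale.Agent.P193.Core.Inst

open Empty.Glue

variable {d : Data} [DecidableEq d.M.A]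

/-- Empty definable sets eventually have trivial fields. -/
theorem emptyPart : EmptyPart d :=
  emptyPart_of
    (fun hG _ hF => (ev_edgeFacts hG hF).mono fun _ Φ E => ⟨_, edgeFields E Φ⟩)
    (fun hG _ hF => (ev_pushEnv hG hF).mono fun _ h E => ⟨_, pushFields E (h E)⟩)

end Vale.Agent.P193.Core.Inst
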