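import Vale.Agent.P193.Full.Core.Empty.Glue.Read
import Vale.Agent.P193.Full.Core.Inst.Slices
import Vale.Agent.P193.Full.Core.Inst.PushPull

/-! The bijections of valuations along the pushes: under the image of a push every predicate is
decided by the predicates below it, as the transport facts of the fields say. -/

namespace Vale.Agent.P193.Core.Empty.Glue

open Calc Inst Classical

set_option linter.unusedSectionVars false

variable {d : Data} [DecidableEq d.M.A] {F : Calc.Frame (Point d)} {M : F.Model}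

/-- A translated base predicate. -/
def fl (k : Outer d) (m : Inner d) (B : Base d) : Kappa d := ⟨.base [] k m B, trivial⟩

theorem fl_eq (k : Outer d) (m : Inner d) (B : Base d) : fl k m B = inK (outK (at1 B) k) m := by
  simp [fl, inK, outK, at1, Atom.inShift, Atom.outShift]

/-- A pushed predicate. -/
def pA (p : Inst.Push) (A : Kappa d) (h : Inst.Atom.Dom p A.1) : Kappa d :=
  ⟨.push [] 1 1 p A.1, ⟨trivial, A.2, h⟩⟩

theorem theta_dom (A : Inst.Atom d) : Inst.Atom.Dom .theta A := trivial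

/-- The predicate of the image of a push. -/
def imA (p : Inst.Push) (s : State d) (b : Bool) (h : p.DomAt s b) : Kappa d :=
  imK p s b (dom_domB h)

/-- The term that holds nowhere. -/
def tEmp : Tm d := .diff .full .full

/-- An atom over the final state has no edges. -/
theorem path_nil_of_fin {π : List (OEdge d)} {c : State d} (h : top π c = .fin) : π = [] := by
  cases π with
  | nil => rfl
  | cons e l => exact absurd h (Path.src_ne_fin e.2)

theorem dom_inShift {p : Inst.Push} {A : Kappa d} (h : Inst.Atom.Dom p A.1) (m : Inner d) :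
    Inst.Atom.Dom p (inK A m).1 := by
  obtain ⟨A, hA⟩ := A
  cases p <;> cases A <;> exact h

theorem inK_cell (A : Kappa d) (m : Inner d) :
    (inK A m).1.st = A.1.st ∧ (inK A m).1.tag = A.1.tag := by
  obtain ⟨A, hA⟩ := A
  cases A <;> exact ⟨rfl, rfl⟩

theorem outK_cell (A : Kappa d) (m : Outer d) :
    (outK A m).1.st = A.1.st ∧ (outK A m).1.tag = A.1.tag := by
  obtain ⟨A, hA⟩ := A
  cases A <;> exact ⟨rfl, rfl⟩

/-- Finitely many facts at the final state, each true in points. -/
structure FinFacts (M : F.Model) : Prop where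
  clean : ∀ b, Never M (.var (at1 (d := d) ⟨.fin, b, .clean⟩))
  kSet : ∀ b, Never M (.var (at1 (d := d) ⟨.fin, b, .kSet⟩))
  gH : ∀ (h : CtxOK M) (ν : U h) (b : Bool), ν.1 (at1 ⟨.fin, b, .gOne⟩) = true →
    ν.1 (at1 ⟨.fin, b, .hOne⟩) = true → ν.1 (at1 ⟨.fin, b, .gHOne⟩) = true
  root_ex : ∀ (h : CtxOK M) (b : Bool), ∃ ν : U h, ν.1 (at1 (rootB b)) = true
  pull : ∀ (p : Inst.Push) (s : State d) (b : Bool) (hd : p.DomAt s b) (Q : Pred d),
    pullPred p (.gOne : Pred d) = some Q → ∀ hQ : Inst.Atom.Dom p (at1 ⟨s, b, Q⟩).1,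
      ∀ (h : CtxOK M) (ν : U h), ν.1 (imA p s b hd) = true →
        (ν.1 (at1 ⟨.fin, p.tag, .gOne⟩) = true ↔ ν.1 (pA p (at1 ⟨s, b, Q⟩) hQ) = true)
  cos : ∃ K : Finset (Inner d), Facts.IsCosets K ∧ ∀ k ∈ K, k ∉ Facts.innerR d →
    ∀ (s : State d) (b : Bool), Never M (.inter (.var (imA .theta s b trivial))
      (.var (inK (at1 ⟨.fin, false, .gOne⟩) k⁻¹)))
  finC : ∀ (h : CtxOK M) (ν : U h), ν.1 (at1 (rootB true)) = true →
    (∃ s : State d, ν.1 (imA .omC s true rfl) = true) ∨
      ν.1 (imA .tMap .fin false ⟨rfl, rfl⟩) = true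

/-- What the pushes need of a model. -/
structure PushEnv (E : Env M) : Prop where
  covers : Covers M
  pull : PushPull M
  cos : ThetaCos M
  z : ZLaws M
  fin : FinFacts M

variable {E : Env M}

theorem fld_outK (E : Env M) (A : Kappa d) (t : Outer d) :
    kfld M (outK A t) = cj (outX M t) (kfld M A) :=
  E.rig.fld_outShift E.laws A.2 t

theorem fld_inK (E : Env M) (A : Kappa d) (t : Inner d) :
    kfld M (inK A t) = cj (inX M t) (kfld M A) :=
  E.rig.fld_inShift E.laws A.2 t

theorem fld_pA (E : Env M) (p : Inst.Push) (A : Kappa d) (h : Inst.Atom.Dom p A.1) :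
    kfld M (pA p A h) = cj (pushX M p A.1.st) (kfld M A) := by
  show (Inst.Atom.push [] 1 1 p A.1).fld M = _
  rw [fld_push_nil, E.rig.out_one, E.rig.in_one, cj_one, cj_one]
  rfl

theorem fld_imA (E : Env M) (p : Inst.Push) (s : State d) (b : Bool) (h : p.DomAt s b) :
    kfld M (imA p s b h) = setFld M (p.imS s b) := by
  exact fld_imK E.rig h

theorem holds_emp (ν : Pt E) : ¬ Holds E.ctx ν (tEmp (d := d)) := fun h => h.2 trivial

theorem tfld_emp (E : Env M) : (ctx E.ctx).tfld (tEmp (d := d)) = 1 :=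
  (ctx E.ctx).tfld_eq_one_of_forall fun ν => holds_emp (E := E) ν

/-- A predicate holding together with a larger one. -/
theorem tfld_inter_le (E : Env M) {A B : Kappa d} (e : Calc.Le (kfld M A) (kfld M B)) :
    (ctx E.ctx).tfld (.inter (.var B) (.var A)) = kfld M A :=
  tfld_ext E.ctx (b := .var A) fun ν => ⟨fun h => h.2, fun h => ⟨val_le E.ctx e ν h, h⟩⟩

/-- Two base predicates of the root at two translates coincide. -/
theorem root_once (E : Env M) {b : Bool} {k : Outer d} {ν : Pt E} (h : ν.1 (at1 (rootB b)) = true)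
    (h' : ν.1 (outK (at1 (rootB b)) k) = true) : k = 1 := by
  by_contra hk
  refine not_both E.ctx ?_ ν h h'
  have := E.laws.h_disj (d := d) .fin b 1 k (Ne.symm hk)
  rw [fld_outK E, fld_at1 E.rig]
  rw [E.rig.out_one, cj_one] at this
  exact this

/-- An atom over the final state with trivial outer coordinate lies in the root. -/
theorem le_root (E : Env M) (A : Kappa d) (h : A.1.AtOne) :
    Calc.Le (kfld M A) (kfld M (at1 (rootB A.1.tag))) := by
  rw [fld_at1 E.rig]; exact (E.rig.le_aux A.1 A.2).2 h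

theorem val_root {A : Kappa d} (h : A.1.AtOne) {ν : Pt E} (hA : ν.1 A = true) :
    ν.1 (at1 (rootB A.1.tag)) = true :=
  val_le E.ctx (le_root E A h) ν hA

theorem val_im_root {p : Inst.Push} {s : State d} {b : Bool} {h : p.DomAt s b} {ν : Pt E}
    (hν : ν.1 (imA p s b h) = true) : ν.1 (at1 (rootB p.tag)) = true :=
  val_root (A := imA p s b h) ⟨rfl, rfl⟩ hν

/-- A pushed predicate lies in the image of its push. -/
theorem val_pA {p : Inst.Push} {A : Kappa d} (h : Inst.Atom.Dom p A.1) {ν : Pt E}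
    (hν : ν.1 (pA p A h) = true) :
    ν.1 (imA p A.1.st A.1.tag (E.rig.le_dom A.2 h).1) = true := by
  refine val_le E.ctx ?_ ν hν
  rw [fld_pA E, fld_imA E]
  exact E.rig.le_im A.2 h

/-- A predicate that may be pushed lies in the domain. -/
theorem le_domB (E : Env M) {p : Inst.Push} {A : Kappa d} (h : Inst.Atom.Dom p A.1) :
    Calc.Le (kfld M A) (kfld M (at1 (p.domB A.1.st A.1.tag))) := by
  rw [fld_at1 E.rig]; exact (E.rig.le_dom A.2 h).2

theorem im_unique {p p' : Inst.Push} {s s' : State d} {b b' : Bool} {h : p.DomAt s b}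
    {h' : p'.DomAt s' b'} {ν : Pt E} (h1 : ν.1 (imA p s b h) = true)
    (h2 : ν.1 (imA p' s' b' h') = true) : p = p' ∧ s = s' ∧ b = b' := by
  by_contra hne
  refine not_both E.ctx ?_ ν h1 h2
  rw [fld_imA E, fld_imA E]
  refine E.rig.im_disj p p' s s' b b' h h' ?_
  tauto

/-- Inner translations keep the image of a push other than theta. -/
theorem im_in {p : Inst.Push} (hp : p ≠ .theta) {s : State d} {b : Bool} (h : p.DomAt s b)
    (m : Inner d) (ν : Pt E) : (vG E m ν).1 (imA p s b h) = ν.1 (imA p s b h) := by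
  rw [gAct_val]
  refine val_congr E.ctx ?_ ν
  rw [fld_inK E, fld_imA E, ← E.rig.push_img p s b h,
    ← E.rig.push_in p s b m _ hp h (E.rig.bfld_good _) (Calc.Le.refl _),
    E.rig.in_fix _ m (by cases p <;> trivial)]

/-- A translate of a pushed predicate at the root is a pushed predicate, or lies outside the outer
group under theta. -/
theorem fld_push_in (E : Env M) {p : Inst.Push} (hp : p ≠ .theta) (A : Kappa d) (h : Inst.Atom.Dom p A.1)
    (m : Inner d) : kfld M (inK (pA p A h) m) = kfld M (pA p (inK A m) (dom_inShift h m)) := by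
  obtain ⟨h1, h2⟩ := E.rig.le_dom A.2 h
  rw [fld_inK E, fld_pA E, fld_pA E, (inK_cell A m).1, fld_inK E]
  exact (E.rig.push_in p A.1.st A.1.tag m _ hp h1 (E.rig.good _) h2).symm

theorem fld_theta_in (E : Env M) (A : Kappa d) (t : Outer d) :
    kfld M (inK (pA .theta A (theta_dom _)) (toInner d t)) = kfld M (pA .theta (outK A t) (theta_dom _)) := by
  rw [fld_inK E, fld_pA E, fld_pA E, (outK_cell A t).1, fld_outK E]
  exact (E.rig.theta_out A.1.st A.1.tag t _ (E.rig.good _) (E.rig.le_st A.2)).symm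

section
variable (E)

/-- A term is an image of a predicate under a push. -/
def Img (p : Inst.Push) (s : State d) (b : Bool) (hd : p.DomAt s b) (A : Kappa d) (t : Tm d) :
    Prop :=
  (t = .var (imA p s b hd) ∨ t = tEmp ∨
      ∃ A' h, A'.1.st = s ∧ A'.1.tag = b ∧ t = .var (pA p A' h)) ∧
    cj (pushX M p s) ((ctx E.ctx).tfld (.inter (.var (at1 (p.domB s b))) (.var A))) =
      (ctx E.ctx).tfld (.inter (.var (imA p s b hd)) t)

end

variable (T : PushEnv E)
include T

/-- Every predicate has an image under a push. -/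
theorem exists_img (p : Inst.Push) (s : State d) (b : Bool) (hd : p.DomAt s b) (A : Kappa d) :
    ∃ t, Img E p s b hd A t := by
  let D : Kappa d := at1 (p.domB s b)
  have hemp : (∀ ν : Pt E, ν.1 D = true → ν.1 A = true → False) →
      ∃ t, Img E p s b hd A t := fun h => by
    refine ⟨tEmp, Or.inr (Or.inl rfl), ?_⟩
    rw [(ctx E.ctx).tfld_eq_one_of_forall (t := .inter (.var D) (.var A))
        fun ν hν => h ν hν.1 hν.2,
      (ctx E.ctx).tfld_eq_one_of_forall (t := .inter (.var (imA p s b hd)) tEmp)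
        fun ν hν => holds_emp (E := E) ν hν.2]
    ext v
    simp
  have hsame : ∀ A' : Kappa d, Inst.Atom.Dom p A'.1 → A'.1.st = s → A'.1.tag = b →
      (∀ ν : Pt E, ν.1 D = true → (ν.1 A = true ↔ ν.1 A' = true)) →
      ∃ t, Img E p s b hd A t := fun A' hA' hs hb hiff => by
    refine ⟨.var (pA p A' hA'), Or.inr (Or.inr ⟨A', hA', hs, hb, rfl⟩), ?_⟩
    subst hs hb
    have hle : Calc.Le (kfld M A') (kfld M D) := le_domB E hA'
    have hle' : Calc.Le (kfld M (pA p A' hA')) (kfld M (imA p _ _ hd)) := by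
      rw [fld_pA E, fld_imA E]; exact E.rig.le_im A'.2 hA'
    rw [tfld_inter_le E hle', fld_pA E]
    congr 1
    rw [← tfld_inter_le E hle]
    exact tfld_ext E.ctx fun ν =>
      ⟨fun h => ⟨h.1, (hiff ν h.1).1 h.2⟩, fun h => ⟨h.1, (hiff ν h.1).2 h.2⟩⟩
  by_cases hc : A.1.st = s ∧ A.1.tag = b
  swap
  · refine hemp fun ν h1 h2 => hc ?_
    exact at_unique E.ctx E.rig (at_of_val E.ctx E.rig h2) (at_of_val E.ctx E.rig h1)
  obtain ⟨hs, hb⟩ := hc
  by_cases hdom : Inst.Atom.Dom p A.1
  · exact hsame A hdom hs hb fun _ _ => Iff.rfl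
  obtain rfl : p = .tMap := by
    cases p with
    | tMap => rfl
    | theta => exact absurd trivial hdom
    | omC => exact absurd (hb.trans hd) hdom
    | omD => exact absurd (hb.trans hd) hdom
    | omK => exact absurd ⟨hb.trans hd.1, hs.trans hd.2⟩ hdom
  obtain ⟨rfl, rfl⟩ := hd
  have hD : D = at1 (rootB false) := by simp [D, Push.domB, rootB]
  obtain ⟨A, hA⟩ := A
  cases A with
  | push π k m p' A' =>
    obtain rfl := path_nil_of_fin hs
    refine hemp fun ν h1 h2 => hdom ⟨hb, rfl, ?_⟩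
    rw [hD] at h1
    refine root_once E h1 ?_
    have h3 : (vH E k ν).1 ⟨.push [] 1 m p' A', hA⟩ = true := by
      rw [hAct_val]
      simpa [outK, Atom.outShift] using h2
    have := val_root (E := E) (A := ⟨.push [] 1 m p' A', hA⟩) ⟨rfl, rfl⟩ h3
    rw [show (Inst.Atom.push [] 1 m p' A').tag = false from hb] at this
    exact this
  | base π k m B =>
    obtain rfl := path_nil_of_fin hs
    obtain ⟨s', b', P'⟩ := B
    cases (show s' = .fin from hs)
    cases (show b' = false from hb)
    have hval : ∀ ν : Pt E, ν.1 (⟨.base [] k m ⟨.fin, false, P'⟩, hA⟩ : Kappa d) =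
        (vG E m (vH E k ν)).1 (at1 ⟨.fin, false, P'⟩) := fun ν => by
      rw [gAct_val, hAct_val, outK_inK]
      simp [inK, outK, at1, Atom.inShift, Atom.outShift]
    have hone : k ≠ 1 → (∀ μ : Pt E, μ.1 (at1 ⟨.fin, false, P'⟩) = true →
        μ.1 (at1 (rootB false)) = true) → ∃ t, Img E .tMap .fin false ⟨rfl, rfl⟩ ⟨_, hA⟩ t := by
      refine fun hk hle => hemp fun ν h1 h2 => hk ?_
      rw [hD] at h1
      rw [hval] at h2
      have h3 := hle _ h2
      rw [in_val (B := rootB false) E.ctx E.rig E.laws trivial, hAct_val] at h3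
      exact root_once E h1 h3
    have hroot : (∀ ν : Pt E, ν.1 (at1 (rootB false)) = true →
        ν.1 (⟨.base [] k m ⟨.fin, false, P'⟩, hA⟩ : Kappa d) = true) →
        ∃ t, Img E .tMap .fin false ⟨rfl, rfl⟩ ⟨_, hA⟩ t := fun h =>
      hsame (at1 (rootB false)) ⟨rfl, rfl, rfl, rfl, Or.inl rfl⟩ rfl rfl fun ν hν => by
        rw [hD] at hν
        exact iff_of_true (h ν hν) hν
    have hfix : P'.OutFix → P'.InFix → ∀ ν : Pt E,
        ν.1 (⟨.base [] k m ⟨.fin, false, P'⟩, hA⟩ : Kappa d) = ν.1 (at1 ⟨.fin, false, P'⟩) :=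
      fun ho hi ν => by rw [hval, in_val E.ctx E.rig E.laws hi, out_val E.ctx E.rig E.laws ho]
    have hz : P'.IsZ → P'.InFix →
        ∃ t, Img E .tMap .fin false ⟨rfl, rfl⟩ ⟨_, hA⟩ t := fun hz hi => by
      have hv : ∀ ν : Pt E, ν.1 (⟨.base [] k m ⟨.fin, false, P'⟩, hA⟩ : Kappa d) =
          ν.1 (outK (at1 ⟨.fin, false, P'⟩) k) := fun ν => by
        rw [hval, in_val (B := ⟨.fin, false, P'⟩) E.ctx E.rig E.laws hi, hAct_val]
      rcases T.z.root_z false P' 1 k hz with h | h
      · refine hroot fun ν hν => ?_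
        rw [hv]
        refine val_le E.ctx ?_ ν hν
        rw [fld_outK E, fld_at1 E.rig, fld_at1 E.rig]
        rwa [E.rig.out_one, cj_one] at h
      · refine hemp fun ν h1 h2 => ?_
        rw [hD] at h1
        rw [hv] at h2
        refine not_both E.ctx ?_ ν h1 h2
        rw [fld_outK E, fld_at1 E.rig, fld_at1 E.rig]
        rwa [E.rig.out_one, cj_one] at h
    cases P' with
    | full =>
      exact hroot fun ν hν => by
        rw [hfix trivial trivial]; exact at_of_val E.ctx E.rig hν
    | clean =>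
      exact hemp fun ν _ h2 => T.fin.clean false E.ctx _ (show _ = true by
        rw [hval] at h2; exact h2)
    | kSet =>
      exact hemp fun ν _ h2 => T.fin.kSet false E.ctx _ (show _ = true by
        rw [hval] at h2; exact h2)
    | hOne =>
      exact hone (fun hk => hdom ⟨rfl, rfl, hk, rfl, Or.inl rfl⟩) fun μ h => h
    | gHOne =>
      exact hone (fun hk => hdom ⟨rfl, rfl, hk, rfl, Or.inr rfl⟩)
        (fun μ h => val_root (E := E) (A := at1 ⟨.fin, false, .gHOne⟩)
          ⟨rfl, rfl, rfl, Or.inr rfl⟩ h)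
    | gOne =>
      refine hsame (fl 1 m ⟨.fin, false, .gHOne⟩) ⟨rfl, rfl, rfl, rfl, Or.inr rfl⟩ rfl rfl
        fun ν hν => ?_
      rw [hD] at hν
      have e : ν.1 (fl 1 m ⟨.fin, false, .gHOne⟩) = (vG E m ν).1 (at1 ⟨.fin, false, .gHOne⟩) := by
        rw [gAct_val, fl_eq, outK_one]
      have e' : (vG E m (vH E k ν)).1 (at1 ⟨.fin, false, .gOne⟩) =
          (vG E m ν).1 (at1 ⟨.fin, false, .gOne⟩) := by
        rw [act_comm, out_val (B := ⟨.fin, false, .gOne⟩) E.ctx E.rig E.laws trivial]
      rw [hval, e, e']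
      refine ⟨fun h => T.fin.gH E.ctx _ false h ?_, fun h => val_le E.ctx ?_ _ h⟩
      · rw [in_val (B := ⟨.fin, false, .hOne⟩) E.ctx E.rig E.laws trivial]; exact hν
      · rw [fld_at1 E.rig, fld_at1 E.rig]; exact E.rig.gH_le_g _ _
    | zOne => exact hz trivial trivial
    | zFront e => exact hz trivial trivial

/-- Under the image of a push every predicate is decided below. -/
theorem exists_span (p : Inst.Push) (s : State d) (b : Bool) (hd : p.DomAt s b)
    (k : Kappa d → Tm d) (hk : ∀ A, Img E p s b hd A (k A)) (A : Kappa d) :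
    ∃ t : Tm d, ∀ ν : Pt E, Holds E.ctx ν (.var (imA p s b hd)) →
      (ν.1 A = true ↔ Holds E.ctx ν ((ctx E.ctx).tsub (.var (imA p s b hd)) k t)) := by
  have hemp : (∀ ν : Pt E, ν.1 (imA p s b hd) = true → ν.1 A = true → False) →
      ∃ t : Tm d, ∀ ν : Pt E, Holds E.ctx ν (.var (imA p s b hd)) →
      (ν.1 A = true ↔ Holds E.ctx ν ((ctx E.ctx).tsub (.var (imA p s b hd)) k t)) := fun h =>
    ⟨tEmp, fun ν hν => iff_of_false (h ν hν) fun h' => h'.2 h'.1⟩
  -- a predicate below the domain is carried to its image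
  have below : ∀ A' : Kappa d, A'.1.st = s →
      Calc.Le (kfld M A') (kfld M (at1 (p.domB s b))) →
      ∀ ν : Pt E, ν.1 (imA p s b hd) = true →
        (Holds E.ctx ν ((ctx E.ctx).tsub (.var (imA p s b hd)) k (.var A')) ↔
          Holds E.ctx ν (.inter (.var (imA p s b hd)) (k A'))) ∧
        cj (pushX M p s) (kfld M A') =
          (ctx E.ctx).tfld (.inter (.var (imA p s b hd)) (k A')) := fun A' _ hle ν _ => by
    refine ⟨Iff.rfl, ?_⟩
    rw [← (hk A').2, tfld_inter_le E hle]
  by_cases hc : A.1.st = .fin ∧ A.1.tag = p.tag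
  swap
  · exact hemp fun ν h1 h2 => hc (at_unique E.ctx E.rig (at_of_val E.ctx E.rig h2)
      (at_of_val E.ctx E.rig (val_im_root h1)))
  obtain ⟨hs, hb⟩ := hc
  obtain ⟨A, hA⟩ := A
  cases A with
  | base π k' m B =>
    obtain rfl := path_nil_of_fin hs
    obtain ⟨a, ha⟩ := T.pull p s b hd k' m B hs hb
    have hleft : ∀ v w, a.flip.a v = a.a v ∧ (setFld M (p.imS s b) v * a.a w *
        (setFld M (p.imS s b) v)⁻¹ = a.a (v * w * v⁻¹)) := fun v w => by
      refine ⟨rfl, ?_⟩
      rw [a.hf v, mul_inv_rev, show a.a v * a.c v * a.a w * ((a.c v)⁻¹ * (a.a v)⁻¹) =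
        a.a v * (a.c v * a.a w * (a.c v)⁻¹) * (a.a v)⁻¹ by simp [mul_assoc],
        (a.ac w v).symm.eq, mul_inv_cancel_right]
      simp
    let C := ctx E.ctx
    have hmeet : C.tfld (.inter (.var ⟨.base [] k' m B, hA⟩) (.var (imA p s b hd))) = a.a := by
      show C.meet (kfld M _) (kfld M (imA p s b hd)) = _
      rw [fld_imA E]
      exact C.meet_eq a
    rcases ha with h1 | ⟨k₁, m₁, B₁, hs₁, hb₁, h1⟩
    · refine hemp fun ν e1 e2 => C.not_holds_of_eq_one ν (hmeet.trans h1) ⟨e2, e1⟩
    · have hle : Calc.Le (kfld M (fl k₁ m₁ B₁)) (kfld M (at1 (p.domB s b))) := by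
        have hl : Calc.Le a.a (setFld M (p.imS s b)) := fun v w => (hleft v w).2
        have := le_cj (pushX M p s)⁻¹ hl
        rw [h1, cj_inv_cancel, ← E.rig.push_img p s b hd, cj_inv_cancel] at this
        rwa [fld_at1 E.rig]
      refine ⟨.var (fl k₁ m₁ B₁), fun ν hν => ?_⟩
      obtain ⟨e1, e2⟩ := below (fl k₁ m₁ B₁) hs₁ hle ν hν
      rw [e1]
      have e3 := holds_of_fld E.ctx ((hmeet.trans h1).trans e2) ν
      exact ⟨fun h => e3.1 ⟨h, hν⟩, fun h => (e3.2 h).1⟩
  | push π k' m p' A' =>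
    obtain rfl := path_nil_of_fin hs
    -- a pushed predicate with trivial translations
    have pushed : ∀ (A'' : Kappa d) (h : Inst.Atom.Dom p' A''.1),
        (∀ ν : Pt E, ν.1 (imA p s b hd) = true →
          ν.1 (⟨.push [] k' m p' A', hA⟩ : Kappa d) = ν.1 (pA p' A'' h)) →
        ∃ t : Tm d, ∀ ν : Pt E, Holds E.ctx ν (.var (imA p s b hd)) →
          (ν.1 (⟨.push [] k' m p' A', hA⟩ : Kappa d) = true ↔
            Holds E.ctx ν ((ctx E.ctx).tsub (.var (imA p s b hd)) k t)) := fun A'' h hv => by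
      by_cases he : p = p' ∧ s = A''.1.st ∧ b = A''.1.tag
      · obtain ⟨rfl, rfl, rfl⟩ := he
        refine ⟨.var A'', fun ν hν => ?_⟩
        obtain ⟨e1, e2⟩ := below A'' rfl (le_domB E h) ν hν
        rw [e1, hv ν hν]
        exact holds_of_fld E.ctx (a := .var (pA p A'' h)) ((fld_pA E p A'' h).trans e2) ν
      · refine hemp fun ν h1 h2 => he ?_
        rw [hv ν h1] at h2
        exact im_unique h1 (val_pA h h2)
    have hk1 : ∀ ν : Pt E, ν.1 (imA p s b hd) = true →
        ν.1 (⟨.push [] k' m p' A', hA⟩ : Kappa d) = true → k' = 1 := fun ν h1 h2 => by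
      refine root_once E (val_im_root h1) ?_
      have h3 : (vH E k' ν).1 ⟨.push [] 1 m p' A', hA⟩ = true := by
        rw [hAct_val]
        simpa [outK, Atom.outShift] using h2
      have := val_root (E := E) (A := ⟨.push [] 1 m p' A', hA⟩) ⟨rfl, rfl⟩ h3
      rw [show (Inst.Atom.push [] 1 m p' A').tag = p.tag from hb] at this
      exact this
    by_cases hk' : k' = 1
    swap
    · exact hemp fun ν h1 h2 => hk' (hk1 ν h1 h2)
    subst hk'
    have e0 : (⟨.push [] 1 m p' A', hA⟩ : Kappa d) = inK (pA p' ⟨A', hA.2.1⟩ hA.2.2) m := by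
      simp [inK, pA, Atom.inShift]
    by_cases hp' : p' = .theta
    · subst hp'
      by_cases hr : ∃ t, toInner d t = m
      · obtain ⟨t, rfl⟩ := hr
        refine pushed (outK ⟨A', hA.2.1⟩ t) (theta_dom _) fun ν _ => val_congr E.ctx ?_ ν
        rw [e0]
        exact fld_theta_in E ⟨A', hA.2.1⟩ t
      · refine hemp fun ν h1 h2 => ?_
        rw [e0] at h2
        have h3 : (vG E m ν).1 (pA .theta ⟨A', hA.2.1⟩ (theta_dom _)) = true := by
          rw [gAct_val]; exact h2
        have h4 := val_pA (p := .theta) (theta_dom _) h3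
        by_cases hp : p = .theta
        · subst hp
          rw [gAct_val] at h4
          refine not_both E.ctx ?_ ν h4 h1
          rw [fld_inK E, fld_imA E, fld_imA E]
          exact T.cos m (fun t ht => hr ⟨t, ht⟩) _ s _ b
        · rw [← im_in hp hd m] at h1
          exact hp (im_unique h1 h4).1
    · refine pushed (inK ⟨A', hA.2.1⟩ m) (dom_inShift hA.2.2 m) fun ν _ => val_congr E.ctx ?_ ν
      rw [e0]
      exact fld_push_in E hp' ⟨A', hA.2.1⟩ hA.2.2 m

/-- The bijection along a push at a state and tag. -/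
noncomputable def pushMove (p : Inst.Push) (s : State d) (b : Bool) (hd : p.DomAt s b) :
    Move (E.ctx) where
  x := pushX M p s
  D := .var (at1 (p.domB s b))
  E := .var (imA p s b hd)
  k A := (exists_img T p s b hd A).choose
  hD := by
    show cj _ (kfld M _) = kfld M _
    rw [fld_at1 E.rig, fld_imA E]
    exact E.rig.push_img p s b hd
  hk A := (exists_img T p s b hd A).choose_spec.2
  span A := exists_span T p s b hd _ (fun A => (exists_img T p s b hd A).choose_spec) A

end Vale.Agent.P193.Core.Empty.Glue
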